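import Vale.Agent.P269HI.Glob
import Vale.Agent.P269HD.Wrap
import Vale.Agent.P269HN.Pn
import Vale.Agent.P269HW.Intg

/-!
P269, row H7: the degree of a complete intersection.
-/

open MeasureTheory Filter Set Metric MvPolynomial
open scoped ContDiff Topology Manifold

set_option linter.unusedSectionVars false

noncomputable section

namespace Vale.Agent.P269HI

open P269F P269H P269HN P272.K

variable {n r c : ℕ}

theorem an_ev (p : MvPolynomial (Fin n) ℂ) (x : C n) : AnalyticAt ℂ (fun y : C n => eval y p) x :=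
  AnalyticOnNhd.eval_mvPolynomial p x (mem_univ x)

theorem ex_Q (p : MvPolynomial (Fin n) ℂ) : ∃ Q : ℝ × C n × C n → ℂ, ContDiff ℝ ∞ Q ∧
    (∀ (t : ℝ) a b, eval (a + (t : ℂ) • b) p = eval a p + t * Q (t, a, b)) ∧
    ∀ a b, Q (0, a, b) = ∑ i, eval a (pderiv i p) * b i := by
  induction p using MvPolynomial.induction_on with
  | C s => exact ⟨0, contDiff_const, by simp, by simp⟩
  | add p q hp hq =>
    obtain ⟨P, a1, a2, a3⟩ := hp
    obtain ⟨Q, b1, b2, b3⟩ := hq
    exact ⟨P + Q, a1.add b1, fun t a b => by simp only [map_add, a2, b2, Pi.add_apply]; ring,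
      fun a b => by simp [a3, b3, add_mul, Finset.sum_add_distrib]⟩
  | mul_X p i hp =>
    obtain ⟨Q, a1, a2, a3⟩ := hp
    have h1 : ContDiff ℝ ∞ fun q : ℝ × C n × C n => q.2.2 i :=
      (contDiff_apply ℝ ℂ i).comp (contDiff_snd.comp contDiff_snd)
    refine ⟨fun q => Q q * q.2.1 i + eval q.2.1 p * q.2.2 i + q.1 * Q q * q.2.2 i,
      ((a1.mul ((contDiff_apply ℝ ℂ i).comp (contDiff_fst.comp contDiff_snd))).add
        (((contDiff_iff_contDiffAt.2 fun x => an_cd (an_ev p x)).comp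
          (contDiff_fst.comp contDiff_snd)).mul h1)).add
        (((Complex.ofRealCLM.contDiff.comp contDiff_fst).mul a1).mul h1),
      fun t a b => by simp only [map_mul, a2, eval_X, Pi.add_apply, Pi.smul_apply, smul_eq_mul]; ring,
      fun a b => ?_⟩
    simp [a3, pderiv_X, Pi.single_apply, add_mul, Finset.sum_add_distrib, Finset.sum_mul,
      apply_ite (eval a), mul_right_comm, mul_comm (a i), add_comm]

theorem ev_hom {p : MvPolynomial (Fin n) ℂ} {d : ℕ} (h : p.IsHomogeneous d) (a : ℂ) (x : C n) :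
    eval (a • x) p = a ^ d * eval x p := by
  rw [eval_eq', eval_eq', Finset.mul_sum]
  refine Finset.sum_congr rfl fun s hs => ?_
  rw [← h (mem_support_iff.1 hs), Finsupp.weight_apply, Finsupp.sum_fintype _ _ (by simp)]
  simp only [Pi.smul_apply, smul_eq_mul, mul_pow, Finset.prod_mul_distrib,
    Finset.prod_pow_eq_pow_sum, Pi.one_apply, mul_one]
  ring

variable {M : Type} [TopologicalSpace M] [ChartedSpace (Fin r → ℂ) M]
  [IsManifold 𝓘(ℂ, Fin r → ℂ) ω M] [T2Space M] [CompactSpace M] (X : CI r c M)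

/-- The equations of `X`. -/
def sys : Sys (r + c + 1) c where
  F x j := eval x (X.f j)
  dg := X.dg
  an x := analyticAt_pi_iff.2 fun _ => an_ev _ x
  hom a x j := ev_hom (X.hom j) a x
  Q q j := (ex_Q (X.f j)).choose q
  cdQ := contDiff_pi.2 fun j => (ex_Q (X.f j)).choose_spec.1
  eqQ t a b := funext fun j => (ex_Q (X.f j)).choose_spec.2.1 t a b

theorem F_rep (x : M) : (sys X).F (X.pt x).rep = 0 := funext ((X.rng _).1 ⟨x, rfl⟩)

theorem F_smul (s : ℂ) (x : M) : (sys X).F (s • (X.pt x).rep) = 0 := funext fun j => by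
  rw [(sys X).hom, F_rep, Pi.zero_apply, mul_zero]

theorem surj (x : M) {s : ℂ} (hs : s ≠ 0) :
    Function.Surjective (fderiv ℂ (sys X).F (s • (X.pt x).rep)) := by
  have h1 (a b : C (r + c + 1)) : fderiv ℂ (sys X).F a b =
      (Matrix.of fun j i => eval a (pderiv i (X.f j))).mulVec b := funext fun j => by
    rw [← (sys X).Q0]
    exact (ex_Q (X.f j)).choose_spec.2.2 a b
  have h2 : LinearIndependent ℂ
      (Matrix.of fun j i => eval (s • (X.pt x).rep) (pderiv i (X.f j))).row := by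
    convert (X.ind x).units_smul fun j => Units.mk0 (s ^ (X.dg j - 1)) (pow_ne_zero _ hs) using 1
    funext j i
    exact ev_hom ((X.hom j).pderiv) s _
  intro v
  obtain ⟨b, hb⟩ := LinearMap.range_eq_top.1 (Submodule.eq_top_of_finrank_eq
    (h2.rank_matrix.trans (Module.finrank_fintype_fun_eq_card ℂ).symm)) v
  exact ⟨b, (h1 _ b).trans hb⟩

theorem ca (x : M) : At (chartAt (Fin r → ℂ) x) x := ⟨chart_mem_atlas _ x, mem_chart_source _ x⟩

theorem ex_i (x : M) : ∃ i, (X.pt x).rep i ≠ 0 := Function.ne_iff.1 (X.pt x).rep_nonzero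

/-- The local lift at a point. -/
def ld (x : M) : LD (sys X) where
  i := (ex_i X x).choose
  σ := lf X (chartAt _ x) (ex_i X x).choose
  z := chartAt _ x x
  an := lf_an X (ca x) (ex_i X x).choose_spec
  one := (ev_ne X (ca x) (ex_i X x).choose_spec).mono fun _ hw => inv_mul_cancel₀ hw
  zero := .of_forall fun _ => F_smul X _ _
  inj := lf_inj X (ca x) (ex_i X x).choose_spec
  surj := surj X _ (inv_ne_zero (ev_ne X (ca x) (ex_i X x).choose_spec).self_of_nhds)

theorem H_eq {e : OpenPartialHomeomorph M (Fin r → ℂ)} (he : e ∈ atlas (Fin r → ℂ) M) {z : C r}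
    (hz : z ∈ e.target) {i : Fin (r + c + 1)} (hi : (X.pt (e.symm z)).rep i ≠ 0) :
    X.H e z = (-(4 * Real.pi : ℂ))⁻¹ • L (fun w => fs (lf X e i w)) z := by
  have h0 : At e (e.symm z) := ⟨he, e.map_target hz⟩
  have h1 := Classical.epsilon_spec (p := fun i => (X.pt (e.symm z)).rep i ≠ 0) (ex_i X _)
  have h2 := lf_an X h0 hi
  have h3 := ev_ne X h0 hi
  rw [CI.H]
  generalize Classical.epsilon (fun i => (X.pt (e.symm z)).rep i ≠ 0) = k at h1 ⊢
  have h4 := ev_ne X h0 h1
  rw [e.right_inv hz] at h2 h3 h4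
  have h5 : lf X e i z k ≠ 0 := mul_ne_zero (inv_ne_zero hi) h1
  have h6 := (cd_lg h5).comp z (an_cd (analyticAt_pi_iff.1 h2 k))
  have h7 := (lh_fs.sm _ fun h => h5 (congrFun h k)).comp z (an_cd h2)
  have h8 : (fun w => (Real.log (‖(X.pt (e.symm w)).rep k‖ ^ 2 /
      ∑ a, ‖(X.pt (e.symm w)).rep a‖ ^ 2) : ℂ)) =ᶠ[𝓝 z]
      fun w => lg (lf X e i w k) + -1 * fs (lf X e i w) := by
    filter_upwards [h3, h4] with w a b
    rw [lf, lh_fs.hom _ _ (inv_ne_zero a) (X.pt _).rep_nonzero, Real.log_div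
      (pow_ne_zero 2 (norm_ne_zero_iff.2 b)) (show ∑ a, ‖(X.pt (e.symm w)).rep a‖ ^ 2 ≠ 0 from
        (nn_pos (X.pt _).rep_nonzero).ne')]
    simp [lg, fs, nn, Real.log_mul, a, b]
    ring
  rw [c1_eq ((h6.add (contDiffAt_const.mul h7)).congr_of_eventuallyEq h8), L_congr h8,
    L_add (g := fun w => lg (lf X e i w k)) (g' := fun w => fs (lf X e i w)) h6 h7,
    L_lg (analyticAt_pi_iff.1 h2 k) h5, zero_add, smul_smul, inv_neg, mul_neg_one]

/-- **H7**: the degree of a complete intersection. -/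
theorem deg : intg (X.H ^ r) = ∏ j, (X.dg j : ℂ) := by
  obtain ⟨N, ix, τ, δ, h1, h2, h3⟩ := glob (ld X) (U := fun x => {z | z ∈ (chartAt (C r) x).target ∧
      (X.pt ((chartAt (C r) x).symm z)).rep (ld X x).i ≠ 0})
    (fun x => inter_mem ((chartAt (C r) x).open_target.mem_nhds (mem_chart_target _ x))
      (ev_ne X (ca x) (ex_i X x).choose_spec)) fun y hy h0 => by
      obtain ⟨a, ha⟩ := Projectivization.exists_smul_eq_mk_rep ℂ y hy
      obtain ⟨x, hx⟩ := (X.rng (Projectivization.mk ℂ y hy)).2 fun j => by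
        rw [← ha]
        exact ((sys X).hom a y j).trans (by rw [h0, Pi.zero_apply, mul_zero])
      refine ⟨x, (a : ℂ)⁻¹ * (X.pt x).rep (ld X x).i, ?_⟩
      have h : (X.pt x).rep (ld X x).i ≠ 0 := (ex_i X x).choose_spec
      rw [show (ld X x).σ (ld X x).z = ((X.pt x).rep (ld X x).i)⁻¹ • (X.pt x).rep from
        congrArg (fun w => ((X.pt w).rep (ld X x).i)⁻¹ • (X.pt w).rep)
          ((chartAt (C r) x).left_inv (ca x).2), smul_smul, mul_inv_cancel_right₀ h, hx, ← ha,
        Units.smul_def, smul_smul, inv_mul_cancel₀ a.ne_zero, one_smul]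
  have k0 (k) {s : ℂ} (hs : s ≠ 0) (x : M) : τ k (s • (X.pt x).rep) = τ k (X.pt x).rep := by
    exact_mod_cast (h1 k).2.1.hom s _ hs (X.pt x).rep_nonzero
  have k1 (k) {x : M} (h : τ k (X.pt x).rep ≠ 0) :
      x ∈ (chartAt (C r) (ix k)).symm '' closedBall (ld X (ix k)).z (δ k) := by
    obtain ⟨z, hz, s, e⟩ := (h1 k).2.2.2 _ (F_rep X x) h
    refine ⟨z, hz, X.inj ?_⟩
    rw [← (X.pt x).mk_rep, ← (X.pt _).mk_rep]
    exact ((Projectivization.mk_eq_mk_iff' ℂ _ _ _ _).2 ⟨_, (mul_smul _ _ _).trans e.symm⟩).symm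
  have k2 (k) : Continuous fun x : M => τ k (X.pt x).rep :=
    continuous_iff_continuousAt.2 fun x => by
      obtain ⟨i, hi⟩ := ex_i X x
      have a1 := (chartAt (C r) x).continuousAt (ca x).2
      have a2 := Complex.continuous_re.continuousAt.comp (ContinuousAt.comp
        (f := fun y => lf X (chartAt (C r) x) i (chartAt (C r) x y)) ((h1 k).2.1.ct _ (smul_ne_zero
          (inv_ne_zero (ev_ne X (ca x) hi).self_of_nhds) (Projectivization.rep_nonzero _)))
        ((lf_an X (ca x) hi).continuousAt.comp a1))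
      refine a2.congr ?_
      filter_upwards [a1.eventually (ev_ne X (ca x) hi),
        (chartAt (C r) x).open_source.mem_nhds (ca x).2] with y a b
      exact (k0 k (inv_ne_zero a) _).trans (by rw [(chartAt (C r) x).left_inv b])
  have k3 (k) : closedBall (ld X (ix k)).z (δ k) ⊆ (chartAt (C r) (ix k)).target :=
    fun z hz => ((h1 k).2.2.1 hz).1
  have hp : (-(4 * Real.pi : ℂ)) ≠ 0 := by simp
  rw [P269HW.intg_eq (e := fun k => chartAt (C r) (ix k)) (ρ := fun k x => τ k (X.pt x).rep)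
    (mul_one (X.H ^ r) ▸ ((P269HD.rel_H X).pow r P269FB.rel_one).isForm)
    (fun k => ⟨chart_mem_atlas _ _, k2 k, (closure_minimal (fun x hx => k1 k hx)
      ((isCompact_closedBall _ _).image_of_continuousOn
        ((chartAt (C r) (ix k)).continuousOn_symm.mono (k3 k))).isClosed).trans (by
          rintro _ ⟨z, hz, rfl⟩; exact (chartAt (C r) (ix k)).map_target (k3 k hz))⟩)
    fun x => h2 _ (X.pt x).rep_nonzero (F_rep X x)]
  rw [add_comm c r, I0_eq, pow_add, ← mul_assoc, mul_comm, mul_right_inj' (pow_ne_zero _ hp)] at h3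
  rw [← mul_left_inj' (pow_ne_zero r hp)]
  refine Eq.trans ?_ h3.symm
  rw [Finset.sum_mul]
  refine Finset.sum_congr rfl fun k _ => ?_
  rw [← integral_mul_const, setIntegral_eq_of_subset_of_forall_sdiff_eq_zero
    (chartAt (C r) (ix k)).open_target.measurableSet (k3 k) fun z hz => ?_]
  · refine setIntegral_congr_fun measurableSet_closedBall fun z hz => ?_
    have a1 := ((h1 k).2.2.1 hz).2
    simp only [Pi.pow_apply, H_eq X (chart_mem_atlas _ _) (k3 k hz) a1, smul_pow, map_smul,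
      smul_eq_mul, inv_pow]
    rw [show τ k ((ld X (ix k)).σ z) = _ from k0 k (inv_ne_zero a1) _, mul_assoc, mul_right_comm,
      inv_mul_cancel₀ (pow_ne_zero r hp), one_mul]
    rfl
  · by_contra h
    obtain ⟨w, hw, e⟩ := k1 k (x := (chartAt (C r) (ix k)).symm z) fun h0 => h (by simp [h0])
    exact hz.2 ((chartAt (C r) (ix k)).symm.injOn (k3 k hw) hz.1 e ▸ hw)

end Vale.Agent.P269HI
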