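import Vale.Agent.P269HI.Prj

/-!
P269, row H7: the fibre integral.
-/

open ExteriorAlgebra MeasureTheory Filter Set
open scoped ContDiff Topology

set_option linter.unusedSectionVars false

noncomputable section

namespace Vale.Agent.P269HI

open P269F

variable {m n c : ℕ}

/-- A smooth function equal to the logarithm for `1 ≤ s`. -/
def θ (s : ℝ) : ℂ := (Real.smoothTransition (2 * s - 1) * Real.log s : ℝ)

theorem θ_eq {s : ℝ} (h : 1 ≤ s) : θ s = Real.log s := by
  rw [θ, Real.smoothTransition.one_of_one_le (by linarith), one_mul]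

theorem cd_θ : ContDiff ℝ ∞ θ := by
  refine Complex.ofRealCLM.contDiff.comp (contDiff_iff_contDiffAt.2 fun s => ?_)
  by_cases h : s = 0
  · refine (contDiffAt_const (c := 0)).congr_of_eventuallyEq ?_
    filter_upwards [Iio_mem_nhds (show s < 1 / 2 by rw [h]; norm_num)] with y hy
    exact mul_eq_zero_of_left
      (Real.smoothTransition.zero_of_nonpos (by linarith [mem_Iio.1 hy])) _
  · exact (Real.smoothTransition.contDiff.comp
      ((contDiff_const.mul contDiff_id).sub contDiff_const)).contDiffAt.mul (contDiffAt_id.log h)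

theorem top_lev (B : C 1 →L[ℝ] C 1 →L[ℝ] ℂ) : top 1 (lev _ B) =
    -(B (fun _ => 1) (fun _ => 1) + B (fun _ => Complex.I) fun _ => Complex.I) := by
  have h1 (a b : C 1 →L[ℝ] ℂ) : top 1 (ι ℂ a * ι ℂ b) =
      a (fun _ => 1) * b (fun _ => Complex.I) - a (fun _ => Complex.I) * b fun _ => 1 := by
    have h2 := top_iM (m := 1) (n := 2) rfl ![a, b]
    have h3 : rb 1 ((0 : Fin 2).cast rfl) = fun _ => 1 := by
      rw [rb_apply]; funext i; rw [Subsingleton.elim i (Fin.divNat _), Pi.single_eq_same]; rfl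
    have h4 : rb 1 ((1 : Fin 2).cast rfl) = fun _ => Complex.I := by
      rw [rb_apply]; funext i; rw [Subsingleton.elim i (Fin.divNat _), Pi.single_eq_same]; rfl
    rw [Matrix.det_fin_two] at h2
    simp only [Matrix.of_apply, h3, h4] at h2
    simpa [ιMulti_apply] using h2
  have h2 (v w : C 1) : ∑ k, ec k v * B (bs _ k) w = B v w := by
    simpa [mul_comm] using congrArg (fun a : C 1 →L[ℝ] ℂ => a v) (sum_ec (B.flip w))
  have h3 : J (C 1) (fun _ => Complex.I) = -fun _ => 1 := funext fun _ => by simp [J_apply]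
  have h4 : J (C 1) (fun _ => 1) = fun _ => Complex.I := funext fun _ => by simp [J_apply]
  simp only [lev_apply, map_sum, h1, Finset.sum_sub_distrib, ContinuousLinearMap.comp_apply, h2, h3,
    h4, map_neg, mul_neg, Finset.sum_neg_distrib]
  ring

/-- The derivative of the squared modulus. -/
def A2 : ℂ →L[ℝ] ℂ →L[ℝ] ℂ :=
  (ContinuousLinearMap.compL ℝ ℂ ℝ ℂ Complex.ofRealCLM).comp (2 • innerSL ℝ)

theorem hf_sq {φ : ℝ → ℂ} (h : Differentiable ℝ φ) (z : ℂ) :
    HasFDerivAt (fun z : ℂ => φ (‖z‖ ^ 2)) (deriv φ (‖z‖ ^ 2) • A2 z) z := by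
  refine ((h (‖z‖ ^ 2)).hasDerivAt.hasFDerivAt.comp z
    (hasStrictFDerivAt_norm_sq z).hasFDerivAt).congr_fderiv (ContinuousLinearMap.ext fun v => ?_)
  simp [A2]
  ring

/-- The radial density. -/
def δ (y : ℝ) : ℂ := -(4 * (deriv θ (y ^ 2) + y ^ 2 * deriv (deriv θ) (y ^ 2)))

theorem cd_θ' : ContDiff ℝ ∞ (deriv θ) := cd_θ.deriv'

theorem top_one (v : C 1) : top 1 (L (fun w => θ (‖w 0‖ ^ 2)) v) = δ ‖v 0‖ := by
  let π : C 1 →L[ℂ] ℂ := ContinuousLinearMap.proj 0
  have h1 := L_comp (π.analyticAt v) (u := fun z => θ (‖z‖ ^ 2)) (cd_θ.comp cd_sq).contDiffAt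
  have h2 : fderiv ℝ (fun z : ℂ => θ (‖z‖ ^ 2)) = _ :=
    funext fun z => (hf_sq (cd_θ.differentiable (by simp)) z).fderiv
  have h3 := ((hf_sq (cd_θ'.differentiable (by simp)) (v 0)).smul A2.hasFDerivAt).fderiv
  have h4 : fderiv ℝ π v = _ := (π.restrictScalars ℝ).fderiv
  refine (congrArg (top 1) h1).trans ?_
  rw [L, lev_pb π.differentiableAt, top_lev, h2, show π v = v 0 from rfl]
  erw [h3]
  have h5 : ((‖v 0‖ : ℝ) : ℂ) ^ 2 = ((v 0).re : ℂ) ^ 2 + ((v 0).im : ℂ) ^ 2 := by
    rw [← Complex.ofReal_pow, Complex.sq_norm, Complex.normSq_apply]; push_cast; ring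
  simp [h4, π, A2, δ, h5]
  ring

theorem int_δ : ∫ a : ℂ, δ ‖a‖ = -(4 * Real.pi) := by
  have d1 := cd_θ'.differentiable (by simp)
  have h0 {s : ℝ} (h : 1 < s) : deriv θ s = (s : ℂ)⁻¹ := by
    rw [EventuallyEq.deriv_eq (f := fun s => (Real.log s : ℂ))
      ((eventually_gt_nhds h).mono fun y hy => θ_eq (le_of_lt hy)), ← Complex.ofReal_inv]
    exact (Real.hasDerivAt_log (by linarith)).ofReal_comp.deriv
  have h1 (y : ℝ) : HasDerivAt (fun y : ℝ => -(2 * ((y : ℂ) ^ 2 * deriv θ (y ^ 2)))) (y • δ y) y := by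
    have a := ((hasDerivAt_pow 2 y).ofReal_comp.mul
      ((d1 (y ^ 2)).hasDerivAt.scomp y (hasDerivAt_pow 2 y))).const_mul (-2)
    refine (a.congr_of_eventuallyEq (.of_forall fun y => by simp)).congr_deriv ?_
    simp [δ]; ring
  have h2 {y : ℝ} (h : 1 < y) : -(2 * ((y : ℂ) ^ 2 * deriv θ (y ^ 2))) = -2 := by
    have : (y : ℂ) ≠ 0 := by exact_mod_cast (by linarith : y ≠ 0)
    rw [h0 (by nlinarith)]; push_cast; field_simp
  have h3 {y : ℝ} (h : 1 < y) : y • δ y = 0 :=
    (h1 y).unique ((hasDerivAt_const y (-2 : ℂ)).congr_of_eventuallyEq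
      ((eventually_gt_nhds h).mono fun _ hy => h2 hy))
  have h4 : Continuous fun y : ℝ => y • δ y := by
    have := cd_θ'.continuous
    have := (show ContDiff ℝ ∞ (deriv (deriv θ)) from cd_θ'.deriv').continuous
    unfold δ; fun_prop
  have h5 : IntegrableOn (fun y : ℝ => y • δ y) (Ioi 0) :=
    ((h4.integrableOn_Icc (a := 0) (b := 1)).union
      (integrableOn_zero.congr_fun (fun y hy => (h3 hy).symm) measurableSet_Ioi)).mono_set
        fun y hy => (le_or_gt y 1).imp (fun h => ⟨le_of_lt hy, h⟩) id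
  rw [integral_fun_norm_addHaar volume δ, Complex.finrank_real_complex]
  simp only [Nat.add_one_sub_one, pow_one]
  rw [integral_Ioi_of_hasDerivAt_of_tendsto (h1 0).continuousAt.continuousWithinAt
    (fun y _ => h1 y) h5 (tendsto_const_nhds.congr' ((eventually_gt_atTop 1).mono fun y hy =>
      (h2 hy).symm))]
  simp [Measure.real, Complex.volume_ball]
  ring

theorem top_prod (v : C c) :
    top c (P (List.ofFn fun (j : Fin c) (w : C c) => θ (‖w j‖ ^ 2)) v) = ∏ j, δ ‖v j‖ := by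
  have h0 {c} (j : Fin c) : ContDiff ℝ ∞ fun w : C c => θ (‖w j‖ ^ 2) :=
    cd_θ.comp (cd_sq.comp (contDiff_apply ℝ ℂ j))
  induction c with
  | zero => simpa [P] using top_iM (m := 0) (n := 0) rfl Fin.elim0
  | succ c ih =>
    have h1 := P_comp ((p1 c 1).analyticAt v)
      (us := List.ofFn fun (j : Fin c) (w : C c) => θ (‖w j‖ ^ 2)) fun u hu => by
        obtain ⟨j, rfl⟩ := List.mem_ofFn.1 hu
        exact (h0 j).contDiffAt
    have h2 := L_comp ((p2 c 1).analyticAt v) (h0 0).contDiffAt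
    have h3 := top_mul v (x := P (List.ofFn fun (j : Fin c) (w : C c) => θ (‖w j‖ ^ 2)) (p1 c 1 v))
      (y := L (fun w => θ (‖w 0‖ ^ 2)) (p2 c 1 v)) (by
        simpa using P_mem (gs := List.ofFn fun (j : Fin c) (w : C c) => θ (‖w j‖ ^ 2))) (lev_mem _)
    rw [← h1, ← h2, ih, top_one, List.map_ofFn] at h3
    rw [List.ofFn_succ_last, P_append, Fin.prod_univ_castSucc, P_cons]
    exact (congrArg _ (congrArg _ (mul_one _))).trans h3

theorem L_add_const (g : C c → ℂ) (k : ℂ) (v : C c) : L (fun y => g y + k) v = L g v := by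
  rw [L, show fderiv ℝ (fun y => g y + k) = fderiv ℝ g from funext fun _ => fderiv_add_const k]
  rfl

/-- The fibre integral. -/
theorem fib (B : C c →L[ℂ] C c) (hB : Function.Injective B) {h : Fin c → ℝ} (hh : ∀ j, 0 < h j)
    (k : Fin c → ℂ) : ∫ v, top c (P (List.ofFn fun j v => θ (‖B v j‖ ^ 2 / h j) + k j) v) =
      (-(4 * Real.pi)) ^ c := by
  let B' : C c →L[ℂ] C c := ContinuousLinearMap.pi fun j =>
    ((√(h j) : ℝ) : ℂ)⁻¹ • (ContinuousLinearMap.proj j).comp B
  have h1 (j) : ((√(h j) : ℝ) : ℂ)⁻¹ ≠ 0 := by simpa using (Real.sqrt_pos.2 (hh j)).ne'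
  have h2 : Function.Injective B' := fun v w e => hB (funext fun j =>
    mul_left_cancel₀ (h1 j) (congrFun e j))
  have h3 := (cv (f := B') MeasurableSet.univ (fun _ _ => B'.differentiableAt) h2.injOn
    (u := P (List.ofFn fun j v => θ (‖B v j‖ ^ 2 / h j) + k j))
    (w := P (List.ofFn fun (j : Fin c) (w : C c) => θ (‖w j‖ ^ 2))) fun v _ => by
      rw [← P_comp (B'.analyticAt v) fun u hu => by
        obtain ⟨j, rfl⟩ := List.mem_ofFn.1 hu
        exact (cd_θ.comp (cd_sq.comp (contDiff_apply ℝ ℂ j))).contDiffAt]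
      simp only [P, List.map_ofFn]
      congr 2
      funext j
      refine (L_add_const _ _ _).trans ?_
      simp [B', mul_pow, Real.sq_sqrt (hh j).le, div_eq_inv_mul]).1
  rw [image_univ, (show Function.Surjective B' from LinearMap.injective_iff_surjective.1
    (show Function.Injective B'.toLinearMap from h2)).range_eq, Measure.restrict_univ] at h3
  rw [← h3]
  simp only [top_prod]
  rw [integral_fintype_prod_volume_eq_pow (fun a : ℂ => δ ‖a‖), int_δ, Fintype.card_fin]

end Vale.Agent.P269HI
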