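import Vale.Agent.P269HI.Deg
import Vale.Agent.P269HD.Top

/-!
P269, row H7 in the form of the collector.
-/

namespace Vale.Agent.P269HI

theorem deg_row : P269HD.DEG := fun _ _ _ _ _ _ _ _ _ X => deg X

end Vale.Agent.P269HI
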