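import Vale.Agent.P269HI.Fib

/-!
P269, row H7: systems of homogeneous equations, the localised potentials, adapted charts.
-/

open ExteriorAlgebra MeasureTheory Filter Set Metric
open scoped ContDiff Topology

set_option linter.unusedSectionVars false

noncomputable section

namespace Vale.Agent.P269HI

open P269F P264Z.CP

variable {m n r c : ℕ}

theorem L_van {a g : C m → ℂ} {H : C m → ℝ} {p : C m} (ha : AnalyticAt ℂ a p)
    (hH : ContinuousAt H p) (h0 : 0 < H p) (h1 : H p < ‖a p‖ ^ 2) (k : ℂ)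
    (e : ∀ᶠ y in 𝓝 p, g y = θ (‖a y‖ ^ 2 / H y) + (Real.log (H y) + k)) : L g p = 0 := by
  have h2 : a p ≠ 0 := fun h => by simp [h] at h1; linarith
  rw [← L_lg ha h2, ← L_add_const (fun y => lg (a y)) k]
  refine L_congr ?_
  filter_upwards [e, continuousAt_const.eventually_lt hH h0,
    hH.eventually_lt (ha.continuousAt.norm.pow 2) h1] with y e a' (b : H y < ‖a y‖ ^ 2)
  rw [e, θ_eq ((one_le_div a').2 b.le), Real.log_div (a'.trans b).ne' a'.ne', lg]
  push_cast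
  ring

theorem P_zero {gs : List (C m → ℂ)} {g : C m → ℂ} {p : C m} (h : g ∈ gs) (h0 : L g p = 0) :
    P gs p = 0 := List.prod_eq_zero (List.mem_map.2 ⟨g, h, h0⟩)

theorem par {E G : Type} [NormedAddCommGroup E] [NormedSpace ℝ E] [NormedAddCommGroup G]
    [NormedSpace ℝ G] {g : ℝ × E → G} {p : ℝ × E} (h : ContDiffAt ℝ ∞ g p) :
    ContDiffAt ℝ ∞ (fun p : ℝ × E => fderiv ℝ (fun y => g (p.1, y)) p.2) p :=
  ContDiffAt.fderiv (f := fun (p : ℝ × E) y => g (p.1, y)) (g := Prod.snd) (n := ∞)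
    (ContDiffAt.comp (g := g) (p, p.2) h (contDiffAt_fst.fst.prodMk contDiffAt_snd))
    contDiffAt_snd (by simp)

theorem ct_P {gs : List (ℝ × C m → ℂ)} {p : ℝ × C m} (h : ∀ g ∈ gs, ContDiffAt ℝ ∞ g p) :
    ContinuousAt (fun p : ℝ × C m => P (gs.map fun g y => g (p.1, y)) p.2) p := by
  induction gs with
  | nil => exact continuousAt_const
  | cons g gs ih =>
    exact (cd_lev.continuous.continuousAt.comp (par (par (h g List.mem_cons_self))).continuousAt).mul
      (ih fun g hg => h g (List.mem_cons_of_mem _ hg))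

/-- A system of homogeneous equations. -/
structure Sys (n c : ℕ) where
  F : C n → C c
  dg : Fin c → ℕ
  an : ∀ x, AnalyticAt ℂ F x
  hom : ∀ (a : ℂ) x j, F (a • x) j = a ^ dg j * F x j
  Q : ℝ × C n × C n → C c
  cdQ : ContDiff ℝ ∞ Q
  eqQ : ∀ (t : ℝ) a b, F (a + (t : ℂ) • b) = F a + (t : ℂ) • Q (t, a, b)

namespace Sys

variable (S : Sys n c)

theorem Q0 (a b : C n) : S.Q (0, a, b) = fderiv ℂ S.F a b := by
  have h0 : HasDerivAt (fun t : ℝ => (t : ℂ)) 1 0 := Complex.ofRealCLM.hasDerivAt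
  have h1 := (((S.an (a + ((0 : ℝ) : ℂ) • b)).differentiableAt.hasFDerivAt.restrictScalars
    ℝ).comp_hasDerivAt (0 : ℝ) ((h0.smul_const b).const_add a))
  have h2 := (h0.smul (((S.cdQ.differentiable (by simp)).comp
    (differentiable_id.prodMk (differentiable_const (a, b)))) 0).hasDerivAt).const_add (S.F a)
  simpa using (h2.congr_of_eventuallyEq (.of_forall fun t => S.eqQ t a b)).unique h1

theorem euler {x : C n} (h : S.F x = 0) : fderiv ℂ S.F x x = 0 := by
  have h1 := (S.an ((1 : ℂ) • x)).differentiableAt.hasFDerivAt.comp_hasDerivAt (1 : ℂ)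
    ((hasDerivAt_id (1 : ℂ)).smul_const x)
  have h2 : (S.F ∘ fun y : ℂ => id y • x) = fun _ => 0 :=
    funext fun y => funext fun j => by simp [S.hom, h]
  rw [h2] at h1
  simpa using h1.unique (hasDerivAt_const _ _)

/-- The localised potentials. -/
def U (t : ℝ) (j : Fin c) (x : C n) : ℂ :=
  θ (‖S.F x j‖ ^ 2 / (t ^ 2 * nn x ^ S.dg j)) + S.dg j * fs x

/-- The list of potentials. -/
def us (r : ℕ) (t : ℝ) : List (C n → ℂ) := List.ofFn (S.U t) ++ List.replicate r fs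

variable {t : ℝ}

theorem lh (ht : t ≠ 0) (j : Fin c) : LH (S.dg j) (S.U t j) := by
  refine ⟨fun x h => (cd_θ.contDiffAt.comp x ((cd_sq.contDiffAt.comp x
    (an_cd (analyticAt_pi_iff.1 (S.an x) j))).div (contDiffAt_const.mul (cd_nn.contDiffAt.pow _))
      (by have := nn_pos h; positivity))).add (contDiffAt_const.mul (lh_fs.sm x h)),
    fun a x ha h => ?_⟩
  have h1 : ‖a‖ ≠ 0 := by simpa using ha
  have h2 := (nn_pos h).ne'
  rw [U, U, lh_fs.hom a x ha h, S.hom, nn_smul, show ‖a ^ S.dg j * S.F x j‖ ^ 2 /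
    (t ^ 2 * (‖a‖ ^ 2 * nn x) ^ S.dg j) = ‖S.F x j‖ ^ 2 / (t ^ 2 * nn x ^ S.dg j) by
      rw [norm_mul, norm_pow, mul_pow, mul_pow, ← pow_mul, ← pow_mul, mul_comm 2]; field_simp]
  ring

theorem ll (r : ℕ) (ht : t ≠ 0) : LL (S.us r t) :=
  LL.append (fun u hu => by
    obtain ⟨j, rfl⟩ := List.mem_ofFn.1 hu
    exact ⟨_, S.lh ht j⟩) (ll_fs r)

theorem van (r : ℕ) (ht : t ≠ 0) {Ψ : C m → C n} {p : C m} (hΨ : AnalyticAt ℂ Ψ p) (h0 : Ψ p ≠ 0)
    {j : Fin c} (hj : t ^ 2 * nn (Ψ p) ^ S.dg j < ‖S.F (Ψ p) j‖ ^ 2) : T (S.us r t) Ψ p = 0 := by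
  refine P_zero (g := fun y => S.U t j (Ψ y)) (List.mem_map.2 ⟨_, List.mem_append_left _
    (List.mem_ofFn.2 ⟨j, rfl⟩), rfl⟩) (L_van (a := fun y => S.F (Ψ y) j)
      (H := fun y => t ^ 2 * nn (Ψ y) ^ S.dg j) ((analyticAt_pi_iff.1 (S.an _) j).comp hΨ)
      (continuousAt_const.mul ((cd_nn.continuous.continuousAt.comp hΨ.continuousAt).pow _))
      (by have := nn_pos h0; positivity) hj (-Real.log (t ^ 2)) ?_)
  filter_upwards [hΨ.continuousAt.eventually_ne h0] with y hy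
  have h1 := (nn_pos hy).ne'
  rw [U, Real.log_mul (by positivity) (by positivity), Real.log_pow (nn _), fs]
  push_cast
  ring

end Sys

/-- A local holomorphic lift of the zero set. -/
structure LD (S : Sys (r + c + 1) c) where
  i : Fin (r + c + 1)
  σ : C r → C (r + c + 1)
  z : C r
  an : AnalyticAt ℂ σ z
  one : ∀ᶠ w in 𝓝 z, σ w i = 1
  zero : ∀ᶠ w in 𝓝 z, S.F (σ w) = 0
  inj : Function.Injective (fderiv ℂ σ z)
  surj : Function.Surjective (fderiv ℂ S.F (σ z))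

/-- An adapted chart. -/
structure Ad {S : Sys (r + c + 1) c} (D : LD S) (U : Set (C r)) where
  A : C c →L[ℂ] C (r + c + 1)
  δ : ℝ
  ε : ℝ
  δp : 0 < δ
  εp : 0 < ε
  Ai : ∀ v, A v D.i = 0
  base : ∀ z ∈ closedBall D.z δ, z ∈ U ∧ AnalyticAt ℂ D.σ z ∧ D.σ z D.i = 1 ∧
    (∀ᶠ w in 𝓝 z, S.F (D.σ w) = 0) ∧ ∀ v, ‖v‖ ≤ 2 * ‖fderiv ℂ S.F (D.σ z) (A v)‖
  low : ∀ q ∈ closedBall (D.z, (0 : C c)) δ, ‖q.2‖ ≤ 2 * ‖S.F (D.σ q.1 + A q.2)‖
  inj : InjOn (fun q : C r × C c => aff D.i (D.σ q.1 + A q.2)) (closedBall (D.z, 0) δ)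
  nb : ∀ y, ‖y - aff D.i (D.σ D.z)‖ < ε →
    ∃ q ∈ closedBall (D.z, (0 : C c)) δ, ins D.i y = D.σ q.1 + A q.2

theorem ex_Ad {S : Sys (r + c + 1) c} (D : LD S) {U : Set (C r)} (hU : U ∈ 𝓝 D.z) :
    Nonempty (Ad D U) := by
  obtain ⟨A0, hA0⟩ := (fderiv ℂ S.F (D.σ D.z)).toLinearMap.exists_rightInverse_of_surjective
    (LinearMap.range_eq_top.2 D.surj)
  let A : C c →L[ℂ] C (r + c + 1) := LinearMap.toContinuousLinearMap A0 -
    ((ContinuousLinearMap.proj D.i).comp (LinearMap.toContinuousLinearMap A0)).smulRight (D.σ D.z)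
  have a1 (v) : A v D.i = 0 := by simp [A, D.one.self_of_nhds]
  have a2 (v) : fderiv ℂ S.F (D.σ D.z) (A v) = v := by
    simpa [A, S.euler D.zero.self_of_nhds] using LinearMap.congr_fun hA0 v
  let G (q : C r × C c) := D.σ q.1 + A q.2
  have g0 : G (D.z, 0) = D.σ D.z := by simp [G]
  have g1 : HasStrictFDerivAt G ((fderiv ℂ D.σ D.z).comp (ContinuousLinearMap.fst ℂ _ _) +
      A.comp (ContinuousLinearMap.snd ℂ _ _)) (D.z, 0) :=
    (HasStrictFDerivAt.comp (D.z, (0 : C c)) D.an.hasStrictFDerivAt hasStrictFDerivAt_fst).add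
      (A.hasStrictFDerivAt.comp _ hasStrictFDerivAt_snd)
  have g2 := HasStrictFDerivAt.comp (D.z, (0 : C c)) (S.an _).hasStrictFDerivAt g1
  rw [g0] at g2
  have g3 : G (D.z, 0) D.i ≠ 0 := by simp [g0, D.one.self_of_nhds]
  have g4 := HasStrictFDerivAt.comp (D.z, (0 : C c))
    (contDiffAt_aff D.i g3).analyticAt.hasStrictFDerivAt g1
  have f1 : Tendsto Prod.fst (𝓝 (D.z, (0 : C c))) (𝓝 D.z) := continuous_fst.continuousAt
  have g5 : ∀ᶠ q in 𝓝 (D.z, (0 : C c)), ins D.i (aff D.i (G q)) = G q :=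
    (f1.eventually D.one).mono fun q hq => by
      have : G q D.i = 1 := by simp [G, hq, a1]
      rw [ins_aff (by simp [this]), this, _root_.inv_one, one_smul]
  have g6 := ((an_ins _).differentiableAt.hasFDerivAt.comp _ g4.hasFDerivAt).unique
    (g1.hasFDerivAt.congr_of_eventuallyEq g5)
  have g7 := ((S.an _).differentiableAt.hasFDerivAt.comp _
    D.an.differentiableAt.hasFDerivAt).unique ((hasFDerivAt_const 0 _).congr_of_eventuallyEq D.zero)
  generalize (fderiv ℂ (aff D.i) (G (D.z, 0))).comp ((fderiv ℂ D.σ D.z).comp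
    (ContinuousLinearMap.fst ℂ (C r) (C c)) + A.comp (ContinuousLinearMap.snd ℂ _ _)) = K at g4 g6
  have g8 : Function.Injective K := (injective_iff_map_eq_zero K).2 fun q hq => by
    have h1 := congrArg (fun T : C r × C c →L[ℂ] _ => T q) g6
    have h2 := congrArg (fun T : C r →L[ℂ] _ => T q.1) g7
    simp only [ContinuousLinearMap.comp_apply, hq, map_zero, add_apply] at h1 h2
    have h3 := congrArg (fderiv ℂ S.F (D.σ D.z)) h1
    have h4 : q.2 = 0 := by simpa [h2, a2] using h3.symm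
    exact Prod.ext (D.inj (by simpa [h4] using h1.symm)) h4
  let K' := (LinearMap.linearEquivOfInjective K.toLinearMap g8 (by simp)).toContinuousLinearEquiv
  have g9 : HasStrictFDerivAt (fun q => aff D.i (G q)) (K' : C r × C c →L[ℂ] C (r + c)) (D.z, 0) :=
    g4
  have b1 : ∀ᶠ z in 𝓝 D.z, ‖(fderiv ℂ S.F (D.σ z)).comp A - ContinuousLinearMap.id ℂ _‖ < 1 / 2 := by
    refine ContinuousAt.eventually_lt (((((S.an _).fderiv.continuousAt.comp
      D.an.continuousAt).clm_comp continuousAt_const).sub continuousAt_const).norm)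
        continuousAt_const ?_
    rw [show (fderiv ℂ S.F (D.σ D.z)).comp A = ContinuousLinearMap.id ℂ _ from
      ContinuousLinearMap.ext a2]
    simp
  have b2 := (((continuous_id.prodMk (continuous_fst.prodMk (continuous_const (y := (0 : C c))))).tendsto
    (D.z, (0 : C c))).eventually (g2.isLittleO.def (c := 1 / 2) (by norm_num)))
  obtain ⟨δ, δp, hδ⟩ := nhds_basis_closedBall.eventually_iff.1
    (g9.eventually_left_inverse.and (b2.and (f1.eventually (b1.and ((eventually_mem_set.2 hU).and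
      (D.an.eventually_analyticAt.and (D.one.and D.zero.eventually_nhds)))))))
  obtain ⟨ε, εp, hε⟩ := Metric.mem_nhds_iff.1
    (g9.map_nhds_eq_of_equiv ▸ image_mem_map (closedBall_mem_nhds (D.z, (0 : C c)) δp))
  refine ⟨A, δ, ε, δp, εp, a1, fun z hz => ?_, fun q hq => ?_, fun p hp q hq e => ?_, fun y hy => ?_⟩
  · obtain ⟨-, -, k1, k2, k3, k4, k5⟩ := hδ (show (z, 0) ∈ _ by simpa [Prod.dist_eq, δp.le] using hz)
    refine ⟨k2, k3, k4, k5, fun v => ?_⟩
    have h1 := (ContinuousLinearMap.le_opNorm _ v).trans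
      (mul_le_mul_of_nonneg_right k1.le (norm_nonneg v))
    have h2 := norm_sub_norm_le v (fderiv ℂ S.F (D.σ z) (A v))
    rw [norm_sub_rev] at h2
    simp only [sub_apply, ContinuousLinearMap.comp_apply, ContinuousLinearMap.id_apply] at h1
    linarith
  · obtain ⟨-, k1, -, -, -, -, k5⟩ := hδ hq
    have h2 := norm_sub_norm_le q.2 (S.F (D.σ q.1 + A q.2))
    rw [norm_sub_rev] at h2
    simp [G, k5.self_of_nhds, a2, show q - (q.1, 0) = (0, q.2) by ext <;> simp] at k1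
    linarith
  · rw [← (hδ hp).1, ← (hδ hq).1]
    exact congrArg _ e
  · obtain ⟨q, hq, rfl⟩ := hε (show y ∈ _ by rwa [mem_ball_iff_norm, g0])
    have : G q D.i = 1 := by simp [G, (hδ hq).2.2.2.2.2.1, a1]
    exact ⟨q, hq, by rw [ins_aff (by simp [this]), this, _root_.inv_one, one_smul]⟩

end Vale.Agent.P269HI
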