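import Vale.Agent.P269HI.Loc

/-!
P269, row H7: the global formula and the volume of projective space.
-/

open ExteriorAlgebra MeasureTheory Filter Set Metric
open scoped ContDiff Topology

set_option linter.unusedSectionVars false

noncomputable section

namespace Vale.Agent.P269HI

open P269F P264Z.CP

variable {r c : ℕ} {S : Sys (r + c + 1) c}

/-- The integral of a power of the Fubini-Study form. -/
def I0 (n k : ℕ) : ℂ := I (n := n) (List.replicate k fs)

theorem I_us {t : ℝ} (ht : t ≠ 0) : I (S.us r t) = (∏ j, (S.dg j : ℂ)) * I0 (r + c) (c + r) := by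
  rw [Sys.us, I_rep (ds := List.ofFn fun j => (S.dg j : ℂ))
    (List.forall₂_of_length_eq_of_get (by simp) fun i h1 h2 => by simpa using S.lh ht _) (ll_fs r),
    List.prod_ofFn, List.length_ofFn, List.replicate_append_replicate, I0]

namespace Ad

variable {D : LD S} {U : Set (C r)} (a : Ad D U)

/-- The numerator of the bump function. -/
def nu (x : C (r + c + 1)) : ℝ := a.ε * ‖x D.i‖ - ‖x - x D.i • D.σ D.z‖

theorem ct_nu : Continuous a.nu := by unfold nu; fun_prop

theorem nu_smul (s : ℂ) (x : C (r + c + 1)) : a.nu (s • x) = ‖s‖ * a.nu x := by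
  rw [nu, nu, Pi.smul_apply, smul_assoc, ← smul_sub, norm_smul, norm_smul]
  ring

/-- The bump function. -/
def bu (x : C (r + c + 1)) : ℝ := max 0 (a.nu x) / ‖x‖

theorem bu_smul {s : ℂ} (hs : s ≠ 0) (x : C (r + c + 1)) : a.bu (s • x) = a.bu x := by
  rw [bu, bu, nu_smul, norm_smul, ← mul_div_mul_left (max 0 (a.nu x)) _ (norm_ne_zero_iff.2 hs),
    mul_max_of_nonneg _ _ (norm_nonneg s), mul_zero]

theorem ct_bu {x : C (r + c + 1)} (h : x ≠ 0) : ContinuousAt a.bu x :=
  (continuous_const.max a.ct_nu).continuousAt.div continuous_norm.continuousAt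
    (norm_ne_zero_iff.2 h)

theorem nu_pos {x : C (r + c + 1)} (h : a.bu x ≠ 0) : 0 < a.nu x := by
  by_contra! h0
  exact h (by rw [bu, max_eq_left h0, zero_div])

theorem bu_ins {y : C (r + c)} (h : a.bu (ins D.i y) ≠ 0) : ‖y - aff D.i (D.σ D.z)‖ < a.ε := by
  have h1 := a.nu_pos h
  rw [nu, ins_same, norm_one, one_smul, mul_one, sub_pos] at h1
  refine (pi_norm_lt_iff a.εp).2 fun j => lt_of_le_of_lt ?_ h1
  simpa [aff, D.one.self_of_nhds] using norm_le_pi_norm (ins D.i y - D.σ D.z) (D.i.succAbove j)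

theorem bu_zero {x : C (r + c + 1)} (h0 : S.F x = 0) (h : a.bu x ≠ 0) :
    ∃ z ∈ closedBall D.z a.δ, x = x D.i • D.σ z := by
  have h1 : x D.i ≠ 0 := fun h1 => by
    have := a.nu_pos h
    simp [nu, h1] at this
    linarith [norm_nonneg x]
  obtain ⟨q, hq, e⟩ := a.nb (aff D.i x) (a.bu_ins (by
    rwa [ins_aff h1, a.bu_smul (inv_ne_zero h1)]))
  have h2 := a.low q hq
  rw [← e, ins_aff h1, show S.F ((x D.i)⁻¹ • x) = 0 from funext fun j => by simp [S.hom, h0],
    norm_zero, mul_zero, norm_le_zero_iff] at h2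
  rw [← closedBall_prod_same] at hq
  rw [h2, map_zero, add_zero] at e
  exact ⟨q.1, hq.1, by rw [← e, smul_ins_aff _ h1]⟩

end Ad

theorem glob {α : Type} (D : α → LD S) {U : α → Set (C r)} (hU : ∀ a, U a ∈ 𝓝 (D a).z)
    (cov : ∀ x, x ≠ 0 → S.F x = 0 → ∃ a, ∃ s : ℂ, x = s • (D a).σ (D a).z) :
    ∃ (N : ℕ) (ix : Fin N → α) (τ : Fin N → C (r + c + 1) → ℝ) (δ : Fin N → ℝ),
      (∀ k, 0 < δ k ∧ Inv (fun x => (τ k x : ℂ)) ∧ closedBall (D (ix k)).z (δ k) ⊆ U (ix k) ∧
        ∀ x, S.F x = 0 → τ k x ≠ 0 →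
          ∃ z ∈ closedBall (D (ix k)).z (δ k), ∃ s : ℂ, x = s • (D (ix k)).σ z) ∧
      (∀ x, x ≠ 0 → S.F x = 0 → ∑ k, τ k x = 1) ∧
      (∏ j, (S.dg j : ℂ)) * I0 (r + c) (c + r) = (-(4 * Real.pi)) ^ c *
        ∑ k, ∫ z in closedBall (D (ix k)).z (δ k), τ k ((D (ix k)).σ z) *
          top r (L (fun w => fs ((D (ix k)).σ w)) z ^ r) := by
  let A (a) : Ad (D a) (U a) := (ex_Ad (D a) (hU a)).some
  have hF : Continuous S.F := continuous_iff_continuousAt.2 fun x => (S.an x).continuousAt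
  have n0 {x : C (r + c + 1)} (h : x ∈ sphere 0 1) : x ≠ 0 := by rintro rfl; simp at h
  obtain ⟨u, hu⟩ := ((isCompact_sphere (0 : C (r + c + 1)) 1).inter_right
    (isClosed_eq hF (continuous_const (y := 0)))).elim_finite_subcover
      (fun a => {x | 0 < (A a).nu x}) (fun a => isOpen_lt continuous_const (A a).ct_nu)
      fun x hx => by
        obtain ⟨a, s, e⟩ := cov x (n0 hx.1) hx.2
        have : s ≠ 0 := by rintro rfl; exact n0 hx.1 (by simpa using e)
        refine mem_iUnion.2 ⟨a, show 0 < (A a).nu x from ?_⟩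
        rw [e, Ad.nu_smul]
        simpa [Ad.nu, (D a).one.self_of_nhds] using mul_pos (norm_pos_iff.2 this) (A a).εp
  let ix (k) : α := u.equivFin.symm k
  let s (x) := ∑ k, (A (ix k)).bu x
  let g (x) := ∑ j, ‖S.F x j‖ ^ 2 / nn x ^ S.dg j
  have b0 (a x) : 0 ≤ (A a).bu x := div_nonneg (le_max_left _ _) (norm_nonneg _)
  have s1 {x} (h : x ≠ 0) : ContinuousAt s x := tendsto_finsetSum _ fun k _ => (A _).ct_bu h
  have s2 {b : ℂ} (hb : b ≠ 0) (x) : s (b • x) = s x := by simp only [s, Ad.bu_smul _ hb]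
  obtain ⟨η, ηp, hη⟩ := (isCompact_sphere (0 : C (r + c + 1)) 1).exists_forall_le'
    (f := fun x => s x + g x) (a := 0) (fun x hx => ((s1 (n0 hx)).add (tendsto_finsetSum _
      fun j _ => ((((continuous_apply j).comp hF).norm.pow 2).continuousAt.div
        (cd_nn.continuous.pow _).continuousAt (pow_pos (nn_pos (n0 hx)) _).ne'))).continuousWithinAt)
    fun x hx => by
      have g0 (j) : 0 ≤ ‖S.F x j‖ ^ 2 / nn x ^ S.dg j := by have := nn_pos (n0 hx); positivity
      by_cases h : S.F x = 0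
      · obtain ⟨a, ha, h1⟩ := mem_iUnion₂.1 (hu ⟨hx, h⟩)
        refine add_pos_of_pos_of_nonneg (Finset.sum_pos' (fun _ _ => b0 _ _)
          ⟨u.equivFin ⟨a, ha⟩, Finset.mem_univ _, ?_⟩) (Finset.sum_nonneg fun j _ => g0 j)
        rw [show ix (u.equivFin ⟨a, ha⟩) = a by simp [ix]]
        exact div_pos (lt_max_of_lt_right h1) (norm_pos_iff.2 (n0 hx))
      · obtain ⟨j, hj⟩ := Function.ne_iff.1 h
        exact add_pos_of_nonneg_of_pos (Finset.sum_nonneg fun _ _ => b0 _ _) (Finset.sum_pos'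
          (fun j _ => g0 j) ⟨j, Finset.mem_univ _,
            div_pos (pow_pos (norm_pos_iff.2 hj) 2) (pow_pos (nn_pos (n0 hx)) _)⟩)
  have h1 {x} (h : x ≠ 0) : η ≤ s x + g x := by
    have h2 : ((‖x‖⁻¹ : ℝ) : ℂ) ≠ 0 := by simpa using h
    have h3 := hη (((‖x‖⁻¹ : ℝ) : ℂ) • x) (by simp [norm_smul, h])
    generalize ((‖x‖⁻¹ : ℝ) : ℂ) = b at h2 h3
    have h4 : ‖b‖ ≠ 0 := by simpa using h2
    simp only [s2 h2, g, S.hom, nn_smul, norm_mul, norm_pow, mul_pow, ← pow_mul, mul_comm 2,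
      mul_div_mul_left _ _ (pow_ne_zero _ h4)] at h3
    exact h3
  let τ (k x) := (A (ix k)).bu x / max (s x) (η / 2)
  have τ1 (k) : Inv fun x => (τ k x : ℂ) :=
    ⟨fun x h => Complex.continuous_ofReal.continuousAt.comp (((A _).ct_bu h).div
      ((s1 h).max continuousAt_const) (lt_max_of_lt_right (half_pos ηp)).ne'), fun b x hb _ => by
        simp only [τ, s2 hb, Ad.bu_smul _ hb]⟩
  have τ2 {x} (h : x ≠ 0) (hg : g x ≤ η / 2) : ∑ k, τ k x = 1 := by
    have h2 : η / 2 ≤ s x := by linarith [h1 h]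
    rw [← Finset.sum_div, max_eq_left h2, div_self ((half_pos ηp).trans_le h2).ne']
  have τ3 {k x} (h : τ k x ≠ 0) : (A (ix k)).bu x ≠ 0 := fun h0 => h (by simp [τ, h0])
  refine ⟨_, ix, τ, fun k => (A (ix k)).δ, fun k => ⟨(A _).δp, τ1 k, fun z hz => ((A _).base z hz).1,
    fun x h0 h => ((A _).bu_zero h0 (τ3 h)).imp fun z hz => ⟨hz.1, _, hz.2⟩⟩,
    fun x h h0 => τ2 h (by simpa [g, h0] using (half_pos ηp).le), ?_⟩
  rw [Finset.mul_sum]
  refine tendsto_nhds_unique (tendsto_const_nhds.congr' ?_) (tendsto_finsetSum _ fun k _ =>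
    (A (ix k)).lim (τ1 k) fun y hy => (A _).bu_ins (τ3 (by simpa using hy)))
  have h2 : ∀ᶠ t : ℝ in 𝓝 0, c * t ^ 2 < η / 2 :=
    ContinuousAt.eventually_lt (by fun_prop) continuousAt_const (by simpa using ηp)
  filter_upwards [self_mem_nhdsWithin, nhdsWithin_le_nhds h2] with t (ht : 0 < t) h3
  rw [← I_us ht.ne', Finset.sum_congr rfl fun k _ => (switch (τ1 k) (S.ll r ht.ne') _ 0).1,
    ← integral_finsetSum _ fun k _ => int_dn (τ1 k) (S.ll r ht.ne')]
  refine integral_congr_ae (.of_forall fun y => ?_)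
  simp only [dn, ← map_sum, ← Finset.sum_smul, ← Complex.ofReal_sum]
  by_cases h : T (S.us r t) (ins 0) y = 0
  · simp [h]
  · rw [τ2 (ins_ne_zero _ _) ((Finset.sum_le_sum (g := fun _ => t ^ 2) fun j _ =>
      (div_le_iff₀ (pow_pos (nn_pos (ins_ne_zero _ _)) _)).2 (not_lt.1 fun h4 =>
        h (S.van r ht.ne' (an_ins y) (ins_ne_zero _ _) h4))).trans (by simpa using h3.le)),
      Complex.ofReal_one]

theorem I0_eq (n : ℕ) : I0 n n = (-(4 * Real.pi)) ^ n := by
  let B : C (0 + n + 1) →L[ℂ] C n :=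
    ContinuousLinearMap.pi fun j => ContinuousLinearMap.proj (Fin.natAdd 0 j).succ
  let S : Sys (0 + n + 1) n := ⟨B, fun _ => 1, B.analyticAt, fun a x j => by simp,
    fun p => B p.2.2, (B.restrictScalars ℝ).contDiff.comp (contDiff_snd.comp contDiff_snd),
    fun t a b => by simp⟩
  have h0 : B (Pi.single 0 1) = 0 := funext fun j => by simp [B]
  let D : LD (r := 0) S := ⟨0, fun _ => Pi.single 0 1, 0, analyticAt_const, by simp,
    .of_forall fun _ => h0, fun _ _ _ => Subsingleton.elim _ _, fun v => ⟨Fin.cons 0 fun j =>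
      v (j.cast (Nat.zero_add n)), by
        rw [show fderiv ℂ S.F _ = B from B.fderiv]
        funext j
        simp [B]⟩⟩
  obtain ⟨N, ix, τ, δ, h1, h2, h3⟩ := glob (fun _ : Unit => D) (U := fun _ => univ)
    (fun _ => univ_mem) fun x _ hx => ⟨(), x 0, funext fun k => by
      induction k using Fin.cases with
      | zero => simp [D]
      | succ k => simpa [D, S, B] using congrFun hx (k.cast (Nat.zero_add n))⟩
  have h4 (k) : closedBall D.z (δ k) = univ := eq_univ_of_forall fun z => by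
    rw [Subsingleton.elim z D.z]; exact mem_closedBall_self (h1 k).1.le
  have h5 : top 0 1 = 1 := by simpa using top_iM (m := 0) (n := 0) rfl Fin.elim0
  have h6 : (volume : Measure (C 0)).real univ = 1 := by simp [Measure.real, volume_pi]
  simp only [h4, pow_zero, h5, D, Measure.restrict_univ, integral_const, h6, one_smul, mul_one,
    ← Complex.ofReal_sum, h2 _ (by simp) h0, S, Nat.cast_one, Finset.prod_const_one, one_mul,
    Nat.zero_add, Nat.add_zero, Complex.ofReal_one] at h3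
  exact h3

end Vale.Agent.P269HI
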