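import Vale.Agent.P269F.Defs

/-!
P269, row H7: calculus of forms on a vector space (norm, exterior derivative, Levi form).
-/

open ExteriorAlgebra MeasureTheory Filter
open scoped ContDiff Topology

set_option linter.unusedSectionVars false

noncomputable section

namespace Vale.Agent.P269HI

open P269F

variable {E F : Type} [NormedAddCommGroup E] [NormedSpace ℝ E] [FiniteDimensional ℝ E]
  [NormedAddCommGroup F] [NormedSpace ℝ F] [FiniteDimensional ℝ F]

scoped instance finCv : Module.Finite ℂ (E →L[ℝ] ℂ) :=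
  Module.Finite.of_restrictScalars_finite ℝ ℂ _

scoped instance finL : Module.Finite ℂ (Λ E) :=
  Module.Finite.of_basis (Module.finBasis ℂ (E →L[ℝ] ℂ)).ExteriorAlgebra

scoped instance nL : NormedAddCommGroup (Λ E) :=
  NormedAddCommGroup.induced _ _ (Module.finBasis ℂ (Λ E)).equivFun.toLinearMap
    (Module.finBasis ℂ (Λ E)).equivFun.injective

scoped instance nsL : NormedSpace ℂ (Λ E) :=
  NormedSpace.induced ℂ _ _ (Module.finBasis ℂ (Λ E)).equivFun.toLinearMap

/-- A complex linear map on the forms as a real continuous linear map. -/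
def cl {G : Type} [NormedAddCommGroup G] [NormedSpace ℂ G] (l : Λ E →ₗ[ℂ] G) : Λ E →L[ℝ] G :=
  (LinearMap.toContinuousLinearMap l).restrictScalars ℝ

theorem cl_apply {G : Type} [NormedAddCommGroup G] [NormedSpace ℂ G] (l : Λ E →ₗ[ℂ] G) (x : Λ E) :
    cl l x = l x := rfl

variable (E) in
/-- The product. -/
def mulL : Λ E →L[ℝ] Λ E →L[ℝ] Λ E :=
  LinearMap.toContinuousLinearMap
    { toFun := fun x => cl (LinearMap.mulLeft ℂ x)
      map_add' := fun x y => ContinuousLinearMap.ext fun w => add_mul x y w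
      map_smul' := fun c x => ContinuousLinearMap.ext fun w => smul_mul_assoc (c : ℂ) x w }

theorem mulL_apply (x y : Λ E) : mulL E x y = x * y := rfl

scoped instance cmL : ContinuousMul (Λ E) := ⟨(mulL E).continuous₂⟩

theorem cd_mul {G : Type} [NormedAddCommGroup G] [NormedSpace ℝ G] {n : ℕ∞ω} {u w : G → Λ E}
    {z : G} (hu : ContDiffAt ℝ n u z) (hw : ContDiffAt ℝ n w z) :
    ContDiffAt ℝ n (fun y => u y * w y) z :=
  ((mulL E).contDiff.contDiffAt.comp z hu).clm_apply hw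

variable (E) in
/-- A real basis. -/
def bs : Module.Basis (Fin (Module.finrank ℝ E)) ℝ E := Module.finBasis ℝ E

/-- The dual basis. -/
def ec (k : Fin (Module.finrank ℝ E)) : E →L[ℝ] ℂ :=
  Complex.ofRealCLM.comp (LinearMap.toContinuousLinearMap ((bs E).coord k))

theorem sum_ec (a : E →L[ℝ] ℂ) : ∑ k, a (bs E k) • ec k = a := by
  ext v
  conv_rhs => rw [← (bs E).sum_repr v, map_sum]
  simp [ec, mul_comm]

variable (E) in
/-- The alternation of a derivative. -/
def wg : (E →L[ℝ] Λ E) →L[ℝ] Λ E :=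
  ∑ k, (mulL E (ι ℂ (ec k))).comp (ContinuousLinearMap.apply ℝ (Λ E) (bs E k))

theorem wg_apply (T : E →L[ℝ] Λ E) : wg E T = ∑ k, ι ℂ (ec k) * T (bs E k) := by
  simp [wg, mulL_apply]

theorem sum_one (a : E →L[ℝ] ℂ) (x : Λ E) :
    ∑ k, ι ℂ (ec k) * (a (bs E k) • x) = ι ℂ a * x := by
  conv_rhs => rw [← sum_ec a]
  simp [Finset.sum_mul]

theorem sum_symm (S : Fin (Module.finrank ℝ E) → Fin (Module.finrank ℝ E) → Λ E)
    (h : ∀ k l, S k l = S l k) : ∑ k, ι ℂ (ec k) * ∑ l, ι ℂ (ec l) * S k l = 0 := by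
  have h1 : ∀ k l, ι ℂ (ec k) * (ι ℂ (ec l) * S k l) + ι ℂ (ec l) * (ι ℂ (ec k) * S l k) = 0 :=
    fun k l => by rw [h l k, ← mul_assoc, ← mul_assoc, ← add_mul, ι_add_mul_swap, zero_mul]
  have h2 : (2 : ℂ) • ∑ k, ι ℂ (ec k) * ∑ l, ι ℂ (ec l) * S k l = 0 := by
    simp only [Finset.mul_sum]
    rw [two_smul]
    nth_rw 2 [Finset.sum_comm]
    simp only [← Finset.sum_add_distrib, h1, Finset.sum_const_zero]
  exact (smul_eq_zero.1 h2).resolve_left two_ne_zero

/-- The exterior derivative. -/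
def D (u : E → Λ E) (z : E) : Λ E := wg E (fderiv ℝ u z)

theorem d_eq {u : E → Λ E} {z : E} (hu : DifferentiableAt ℝ u z) : d u z = D u z := by
  set b := Module.Free.chooseBasis ℂ (Λ E)
  have h (I) : fderiv ℝ (fun y => b.repr (u y) I) z = (cl (b.coord I)).comp (fderiv ℝ u z) :=
    ((cl (b.coord I)).hasFDerivAt.comp z hu.hasFDerivAt).fderiv
  rw [d, finsum_eq_sum_of_fintype, D, wg_apply]
  rw [Finset.sum_congr rfl fun I _ => ((sum_one _ (b I)).symm.trans (by rw [h])), Finset.sum_comm]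
  refine Finset.sum_congr rfl fun k _ => ?_
  rw [← Finset.mul_sum]
  congr 1
  exact b.sum_repr _

theorem D_mul {u w : E → Λ E} {z : E} (hu : DifferentiableAt ℝ u z) (hw : DifferentiableAt ℝ w z)
    (s : ℂ) (h : ∀ a, ι ℂ a * u z = s • (u z * ι ℂ a)) :
    D (fun y => u y * w y) z = D u z * w z + s • (u z * D w z) := by
  have h1 := ((mulL E).hasFDerivAt_of_bilinear hu.hasFDerivAt hw.hasFDerivAt).fderiv
  simp only [mulL_apply] at h1
  rw [D, h1, D, D, wg_apply, wg_apply, wg_apply, Finset.sum_mul, Finset.mul_sum, Finset.smul_sum,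
    ← Finset.sum_add_distrib]
  refine Finset.sum_congr rfl fun k _ => ?_
  simp only [add_apply, ContinuousLinearMap.precompR_apply,
    ContinuousLinearMap.precompL_apply, ContinuousLinearMap.compL_apply,
    ContinuousLinearMap.comp_apply, mulL_apply, mul_add]
  rw [← mul_assoc, h, add_comm, smul_mul_assoc, mul_assoc, mul_assoc]

/-- Stokes. -/
theorem int_D [MeasurableSpace E] [BorelSpace E] (μ : Measure E) [μ.IsAddHaarMeasure]
    (l : Λ E →ₗ[ℂ] ℂ) {u : E → Λ E} (hu : ContDiff ℝ 1 u) (hc : HasCompactSupport u) :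
    ∫ z, l (D u z) ∂μ = 0 := by
  let T (k) : Λ E →L[ℝ] ℂ := (cl l).comp (mulL E (ι ℂ (ec k)))
  have h1 (k) : ContDiff ℝ 1 fun z => T k (u z) := (T k).contDiff.comp hu
  have h2 (k) : HasCompactSupport fun z => T k (u z) := hc.comp_left (map_zero _)
  have h3 (k) : Integrable (fun z => fderiv ℝ (fun z => T k (u z)) z (bs E k)) μ :=
    (((h1 k).continuous_fderiv one_ne_zero).clm_apply continuous_const).integrable_of_hasCompactSupport
      ((h2 k).fderiv_apply ℝ _)
  have h4 (z) : l (D u z) = ∑ k, fderiv ℝ (fun z => T k (u z)) z (bs E k) := by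
    rw [D, wg_apply, map_sum]
    refine Finset.sum_congr rfl fun k _ => ?_
    rw [show fderiv ℝ (fun z => T k (u z)) z = _ from
      ((T k).hasFDerivAt.comp z (hu.differentiable one_ne_zero z).hasFDerivAt).fderiv]
    rfl
  simp only [h4]
  rw [integral_finsetSum _ fun k _ => h3 k]
  refine Finset.sum_eq_zero fun k _ => ?_
  have h5 := integral_mul_fderiv_eq_neg_fderiv_mul_of_integrable (μ := μ) (f := fun _ => (1 : ℂ))
    (g := fun z => T k (u z)) (v := bs E k) (by simp) (by simpa using h3 k)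
    (by simpa using (h1 k).continuous.integrable_of_hasCompactSupport (h2 k))
    (fun _ _ => differentiableAt_const _) fun x _ => (h1 k).differentiable one_ne_zero x
  simpa using h5

theorem comm_ii (a b : E →L[ℝ] ℂ) (x : Λ E) : Commute (ι ℂ a * ι ℂ b) x := by
  induction x using ExteriorAlgebra.induction with
  | algebraMap r => exact (Algebra.commutes r _).symm
  | ι c =>
    have h (a c : E →L[ℝ] ℂ) : ι ℂ a * ι ℂ c = -(ι ℂ c * ι ℂ a) :=
      eq_neg_of_add_eq_zero_left (ι_add_mul_swap a c)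
    rw [Commute, SemiconjBy, mul_assoc, h b c, mul_neg, ← mul_assoc, h a c, neg_mul, neg_neg,
      mul_assoc]
  | mul x y hx hy => exact hx.mul_right hy
  | add x y hx hy => exact hx.add_right hy

theorem pb_i (f : E → F) (z : E) (a : F →L[ℝ] ℂ) :
    pb f z (ι ℂ a) = ι ℂ (a.comp (fderiv ℝ f z)) := ExteriorAlgebra.map_apply_ι _ _

theorem pb_comp {G : Type} [NormedAddCommGroup G] [NormedSpace ℝ G] {f : E → F} {g : F → G}
    {z : E} (hg : DifferentiableAt ℝ g (f z)) (hf : DifferentiableAt ℝ f z) (x : Λ G) :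
    pb (fun y => g (f y)) z x = pb f z (pb g (f z) x) := by
  have h : pb (fun y => g (f y)) z = (pb f z).comp (pb g (f z)) := by
    refine ExteriorAlgebra.hom_ext (LinearMap.ext fun a => ?_)
    simp only [pb, LinearMap.comp_apply, AlgHom.toLinearMap_apply, AlgHom.comp_apply,
      ExteriorAlgebra.map_apply_ι]
    congr 1
    exact congrArg a.comp (fderiv_comp z hg hf)
  rw [h]; rfl

variable [NormedSpace ℂ E] [IsScalarTower ℝ ℂ E] [NormedSpace ℂ F] [IsScalarTower ℝ ℂ F]

variable (E) in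
/-- The complex structure. -/
def J : E →L[ℝ] E := (Complex.I • ContinuousLinearMap.id ℂ E).restrictScalars ℝ

theorem J_apply (v : E) : J E v = Complex.I • v := rfl

variable (E) in
/-- The one form `a ∘ J`. -/
def iJ : (E →L[ℝ] ℂ) →L[ℝ] Λ E :=
  LinearMap.toContinuousLinearMap
    { toFun := fun a => ι ℂ (a.comp (J E))
      map_add' := fun a b => by rw [ContinuousLinearMap.add_comp, map_add]
      map_smul' := fun c a => by
        rw [ContinuousLinearMap.smul_comp, ← algebraMap_smul ℂ c (a.comp (J E)), map_smul]; rfl }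

theorem iJ_apply (a : E →L[ℝ] ℂ) : iJ E a = ι ℂ (a.comp (J E)) := rfl

variable (E) in
/-- The two form attached to a second derivative. -/
def lev : (E →L[ℝ] E →L[ℝ] ℂ) →L[ℝ] Λ E :=
  (wg E).comp (ContinuousLinearMap.compL ℝ E _ _ (iJ E))

theorem lev_apply (B : E →L[ℝ] E →L[ℝ] ℂ) :
    lev E B = ∑ k, ι ℂ (ec k) * ι ℂ ((B (bs E k)).comp (J E)) := wg_apply _

theorem lev_symm {B : E →L[ℝ] E →L[ℝ] ℂ}
    (h : ∀ v w, B v (Complex.I • w) = B w (Complex.I • v)) : lev E B = 0 := by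
  rw [lev_apply, ← sum_symm (fun k l => B (bs E k) (Complex.I • bs E l) • (1 : Λ E))
    fun _ _ => by rw [h]]
  refine Finset.sum_congr rfl fun k _ => ?_
  rw [← mul_one (ι ℂ ((B (bs E k)).comp (J E))), ← sum_one ((B (bs E k)).comp (J E))]
  rfl

theorem lev_pb {f : E → F} {z : E} (hf : DifferentiableAt ℂ f z) (B : F →L[ℝ] F →L[ℝ] ℂ) :
    pb f z (lev F B) = lev E (B.bilinearComp (fderiv ℝ f z) (fderiv ℝ f z)) := by
  have hJ : (J F).comp (fderiv ℝ f z) = (fderiv ℝ f z).comp (J E) := by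
    rw [hf.fderiv_restrictScalars ℝ]
    ext v
    simp [J_apply]
  have h1 (k) : ι ℂ ((B.bilinearComp (fderiv ℝ f z) (fderiv ℝ f z) (bs E k)).comp (J E)) =
      ∑ l, ec l (fderiv ℝ f z (bs E k)) •
        ι ℂ (((B (bs F l)).comp (J F)).comp (fderiv ℝ f z)) := by
    simp only [← map_smul, ← map_sum, ContinuousLinearMap.comp_assoc, hJ]
    congr 1
    ext w
    have h2 := congrArg (fun a : F →L[ℝ] ℂ => a (fderiv ℝ f z (bs E k)))
      (sum_ec (B.flip (fderiv ℝ f z (J E w))))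
    simpa [mul_comm] using h2.symm
  simp only [lev_apply, map_sum, map_mul, pb_i, h1, Finset.mul_sum]
  rw [Finset.sum_comm]
  exact Finset.sum_congr rfl fun l _ => (sum_one ((ec l).comp (fderiv ℝ f z)) _).symm

theorem lev_comm (B : E →L[ℝ] E →L[ℝ] ℂ) (x : Λ E) : Commute (lev E B) x := by
  rw [lev_apply]
  exact Commute.sum_left _ _ _ fun k _ => comm_ii _ _ x

theorem lev_mem (B : E →L[ℝ] E →L[ℝ] ℂ) : lev E B ∈ ⋀[ℂ]^2 (E →L[ℝ] ℂ) := by
  rw [lev_apply]
  refine Submodule.sum_mem _ fun k _ => ?_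
  rw [exteriorPower, pow_two]
  exact Submodule.mul_mem_mul ⟨_, rfl⟩ ⟨_, rfl⟩

/-- The form `d (d g ∘ J)`. -/
def L (g : E → ℂ) (z : E) : Λ E := lev E (fderiv ℝ (fderiv ℝ g) z)

variable {g g' : E → ℂ} {z : E}

theorem L_congr (h : g =ᶠ[𝓝 z] g') : L g z = L g' z := by
  rw [L, L, h.fderiv.fderiv_eq]

theorem df2 {G : Type} [NormedAddCommGroup G] [NormedSpace ℝ G] {g : E → G}
    (h : ContDiffAt ℝ ∞ g z) : ContDiffAt ℝ ∞ (fderiv ℝ g) z := h.fderiv_right (by simp)

theorem cd_lev : ContDiff ℝ ∞ (lev E) := by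
  have h := ContinuousLinearMap.contDiff (𝕜 := ℝ) (n := ∞) (E := E →L[ℝ] E →L[ℝ] ℂ) (F := Λ E)
  exact h (lev E)

theorem cd_L (h : ContDiffAt ℝ ∞ g z) : ContDiffAt ℝ ∞ (L g) z :=
  cd_lev.contDiffAt.comp z (df2 (df2 h))

theorem sy2 {G : Type} [NormedAddCommGroup G] [NormedSpace ℝ G] {g : E → G}
    (h : ContDiffAt ℝ ∞ g z) (v w : E) :
    fderiv ℝ (fderiv ℝ g) z v w = fderiv ℝ (fderiv ℝ g) z w v :=
  h.isSymmSndFDerivAt (by simp; exact WithTop.coe_le_coe.2 le_top) v w

theorem D_iJ (h : ContDiffAt ℝ ∞ g z) : D (fun y => iJ E (fderiv ℝ g y)) z = L g z := by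
  rw [D, show fderiv ℝ (fun y => iJ E (fderiv ℝ g y)) z = _ from
    ((iJ E).hasFDerivAt.comp z ((df2 h).differentiableAt (by simp)).hasFDerivAt).fderiv]
  rfl

theorem D_L (h : ContDiffAt ℝ ∞ g z) : D (L g) z = 0 := by
  rw [D, show fderiv ℝ (L g) z = _ from
    ((ContinuousLinearMap.hasFDerivAt (E := E →L[ℝ] E →L[ℝ] ℂ) (lev E)).comp z
      ((df2 (df2 h)).differentiableAt (by simp)).hasFDerivAt).fderiv,
    wg_apply]
  simp only [ContinuousLinearMap.comp_apply, lev_apply]
  exact sum_symm _ fun k l => by rw [sy2 (df2 h) (bs E k) (bs E l)]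

theorem ev_df {G : Type} [NormedAddCommGroup G] [NormedSpace ℝ G] {g : E → G}
    (h : ContDiffAt ℝ ∞ g z) : ∀ᶠ y in 𝓝 z, DifferentiableAt ℝ g y :=
  ((h.of_le (m := 1) (by simp)).eventually (by simp)).mono fun _ hy =>
    hy.differentiableAt one_ne_zero

theorem L_add (h : ContDiffAt ℝ ∞ g z) (h' : ContDiffAt ℝ ∞ g' z) (s : ℂ) :
    L (fun y => g y + s * g' y) z = L g z + s • L g' z := by
  have h1 : fderiv ℝ (fun y => g y + s * g' y) =ᶠ[𝓝 z] fun y => fderiv ℝ g y + s • fderiv ℝ g' y := by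
    filter_upwards [ev_df h, ev_df h'] with y a b
    exact (a.hasFDerivAt.add (b.hasFDerivAt.const_mul s)).fderiv
  rw [L, h1.fderiv_eq, show fderiv ℝ (fun y => fderiv ℝ g y + s • fderiv ℝ g' y) z = _ from
    (((df2 h).differentiableAt (by simp)).hasFDerivAt.add
      (((df2 h').differentiableAt (by simp)).hasFDerivAt.const_smul s)).fderiv, map_add]
  simp only [L, lev_apply, smul_apply, ContinuousLinearMap.smul_comp, map_smul,
    mul_smul_comm, Finset.smul_sum]

theorem L_const (c : ℂ) (z : E) : L (fun _ => c) z = 0 := by simp [L]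

theorem L_clm (a : E →L[ℝ] ℂ) (z : E) : L a z = 0 := by
  rw [L, show fderiv ℝ a = fun _ => a from funext fun _ => a.fderiv]
  simp

/-- Naturality under holomorphic maps. -/
theorem L_comp {u : F → ℂ} {φ : E → F} (hφ : AnalyticAt ℂ φ z) (hu : ContDiffAt ℝ ∞ u (φ z)) :
    L (fun y => u (φ y)) z = pb φ z (L u (φ z)) := by
  have h0 : ContDiffAt ℝ ∞ φ z := (hφ.contDiffAt.restrict_scalars ℝ)
  have h1 : fderiv ℝ (fun y => u (φ y)) =ᶠ[𝓝 z]
      fun y => (fderiv ℝ u (φ y)).comp (fderiv ℝ φ y) := by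
    filter_upwards [ev_df h0, h0.continuousAt.eventually (ev_df hu)] with y a b
    exact fderiv_comp y b a
  have h2 := (((df2 hu).differentiableAt (by simp)).hasFDerivAt.comp z
    (h0.differentiableAt (by simp)).hasFDerivAt).clm_comp
    ((df2 h0).differentiableAt (by simp)).hasFDerivAt
  have h3 (v w : E) : fderiv ℝ (fderiv ℝ φ) z v (Complex.I • w) =
      Complex.I • fderiv ℝ (fderiv ℝ φ) z v w := by
    have h4 := ((df2 h0).differentiableAt (by simp)).hasFDerivAt
    have h5 := (h4.clm_apply (hasFDerivAt_const (Complex.I • w) z)).fderiv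
    have h6 := ((h4.clm_apply (hasFDerivAt_const w z)).const_smul Complex.I).fderiv
    have h7 : (fun y => fderiv ℝ φ y (Complex.I • w)) =ᶠ[𝓝 z]
        Complex.I • fun y => fderiv ℝ φ y w := by
      filter_upwards [hφ.eventually_analyticAt] with y a
      simp [a.differentiableAt.fderiv_restrictScalars ℝ]
    have h8 := congrArg (fun T : E →L[ℝ] F => T v) (h5.symm.trans (h7.fderiv_eq.trans h6))
    simpa using h8
  rw [L, h1.fderiv_eq, show fderiv ℝ (fun y => (fderiv ℝ u (φ y)).comp (fderiv ℝ φ y)) z = _ from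
    h2.fderiv, map_add, L, lev_pb hφ.differentiableAt, lev_symm, zero_add]
  · rfl
  · intro v w
    simp [h3, sy2 h0 v w]

theorem c1_eq {m : ℕ} {h : (Fin m → ℂ) → ℝ} {z : Fin m → ℂ}
    (hh : ContDiffAt ℝ ∞ (fun w => (Real.log (h w) : ℂ)) z) :
    c1 h z = (4 * Real.pi : ℂ)⁻¹ • L (fun w => (Real.log (h w) : ℂ)) z := by
  have h1 (a) : pb (fun v : Fin m → ℂ => Complex.I • v) 0 (ι ℂ a) = iJ _ a := by
    rw [pb_i, show fderiv ℝ (fun v : Fin m → ℂ => Complex.I • v) 0 = _ from (J _).fderiv]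
    rfl
  simp only [c1, h1]
  rw [← D_iJ hh]
  exact congrArg _ (d_eq ((iJ _).differentiableAt.comp z ((df2 hh).differentiableAt (by simp))))

end Vale.Agent.P269HI
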