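import Vale.Agent.P269HI.Geo

/-!
P269, row H7: the localised forms converge to the current of integration.
-/

open ExteriorAlgebra MeasureTheory Filter Set Metric
open scoped ContDiff Topology

set_option linter.unusedSectionVars false

noncomputable section

namespace Vale.Agent.P269HI

open P269F P264Z.CP

variable {m r c : ℕ}

theorem P_congr {f g : Fin c → C m → ℂ} {q : C m} (h : ∀ j, L (f j) q = L (g j) q) :
    P (List.ofFn f) q = P (List.ofFn g) q := by
  simp only [P, List.map_ofFn, Function.comp_def, h]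

namespace Ad

variable {S : Sys (r + c + 1) c} {D : LD S} {U : Set (C r)} (a : Ad D U)

/-- The rescaled chart. -/
def Ψ (t : ℝ) (q : C (r + c)) : C (r + c + 1) := D.σ (p1 r c q) + (t : ℂ) • a.A (p2 r c q)

/-- The potentials in the rescaled chart. -/
def W (j : Fin c) (p : ℝ × C (r + c)) : ℂ :=
  θ (‖S.Q (p.1, D.σ (p1 r c p.2), a.A (p2 r c p.2)) j‖ ^ 2 / nn (a.Ψ p.1 p.2) ^ S.dg j) +
    S.dg j * fs (a.Ψ p.1 p.2)

/-- The list of potentials in the rescaled chart. -/
def ws : List (ℝ × C (r + c) → ℂ) := List.ofFn a.W ++ List.replicate r fun p => fs (a.Ψ p.1 p.2)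

/-- The density in the rescaled chart. -/
def G (τ : C (r + c + 1) → ℂ) (p : ℝ × C (r + c)) : ℂ :=
  top (r + c) (τ (a.Ψ p.1 p.2) • P (a.ws.map fun g y => g (p.1, y)) p.2)

variable {q : C (r + c)} {t : ℝ} {τ : C (r + c + 1) → ℂ}

theorem Ψ_i (hq : p1 r c q ∈ closedBall D.z a.δ) : a.Ψ t q D.i = 1 := by
  simp [Ψ, (a.base _ hq).2.2.1, a.Ai]

theorem Ψ_ne (hq : p1 r c q ∈ closedBall D.z a.δ) : a.Ψ t q ≠ 0 := fun h => by
  simpa [h] using a.Ψ_i (t := t) hq

theorem an_σ (hq : p1 r c q ∈ closedBall D.z a.δ) : AnalyticAt ℂ (fun y => D.σ (p1 r c y)) q :=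
  (a.base _ hq).2.1.comp ((p1 r c).analyticAt q)

theorem Ψ_an (hq : p1 r c q ∈ closedBall D.z a.δ) : AnalyticAt ℂ (a.Ψ t) q :=
  (a.an_σ hq).add (((t : ℂ) • a.A.comp (p2 r c)).analyticAt q)

theorem cd_ws (hq : p1 r c q ∈ closedBall D.z a.δ) :
    ContDiffAt ℝ ∞ (fun p : ℝ × C (r + c) => a.Ψ p.1 p.2) (t, q) ∧
      ∀ g ∈ a.ws, ContDiffAt ℝ ∞ g (t, q) := by
  have h1 : ContDiffAt ℝ ∞ (fun p : ℝ × C (r + c) => D.σ (p1 r c p.2)) (t, q) :=
    ContDiffAt.comp (g := fun y => D.σ (p1 r c y)) (t, q) (an_cd (a.an_σ hq)) contDiffAt_snd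
  have h2 : ContDiffAt ℝ ∞ (fun p : ℝ × C (r + c) => a.A (p2 r c p.2)) (t, q) :=
    ((a.A.comp (p2 r c)).restrictScalars ℝ).contDiff.contDiffAt.comp _ contDiffAt_snd
  have h3 : ContDiffAt ℝ ∞ (fun p : ℝ × C (r + c) => a.Ψ p.1 p.2) (t, q) :=
    h1.add ((Complex.ofRealCLM.contDiff.contDiffAt.comp _ contDiffAt_fst).smul h2)
  have h4 := (lh_fs.sm _ (a.Ψ_ne (t := t) hq)).comp (t, q) h3
  refine ⟨h3, List.forall_mem_append.2 ⟨fun g hg => ?_, fun g hg => ?_⟩⟩
  · obtain ⟨j, rfl⟩ := List.mem_ofFn.1 hg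
    exact (cd_θ.contDiffAt.comp _ ((cd_sq.contDiffAt.comp _ (contDiffAt_pi.1
      (S.cdQ.contDiffAt.comp (t, q) (contDiffAt_fst.prodMk (h1.prodMk h2))) j)).div
        ((cd_nn.contDiffAt.comp _ h3).pow _) (pow_pos (nn_pos (a.Ψ_ne hq)) _).ne')).add
      (contDiffAt_const.mul h4)
  · exact List.eq_of_mem_replicate hg ▸ h4

theorem ct_G (hτ : Inv τ) (hq : p1 r c q ∈ closedBall D.z a.δ) : ContinuousAt (a.G τ) (t, q) := by
  have h1 : ContinuousAt (fun p : ℝ × C (r + c) => τ (a.Ψ p.1 p.2)) (t, q) :=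
    ContinuousAt.comp (f := fun p : ℝ × C (r + c) => a.Ψ p.1 p.2) (hτ.ct _ (a.Ψ_ne hq))
      (a.cd_ws hq).1.continuousAt
  have h2 := (cl (top (r + c))).continuous.continuousAt.comp (h1.smul (ct_P (a.cd_ws (t := t) hq).2))
  exact h2

theorem G_eq (ht : t ≠ 0) (hq : p1 r c q ∈ closedBall D.z a.δ) :
    dn τ (S.us r t) (a.Ψ t) q = a.G τ (t, q) := by
  simp only [dn, G, T, Sys.us, ws, List.map_append, List.map_ofFn, List.map_replicate, P_append]
  rw [P_congr fun j => L_congr ?_]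
  filter_upwards [(p1 r c).continuous.continuousAt.eventually (a.base _ hq).2.2.2.1] with y hy
  simp only [Function.comp, Sys.U, W]
  rw [show S.F (a.Ψ t y) = _ from S.eqQ _ _ _, hy, zero_add, Pi.smul_apply, smul_eq_mul, norm_mul,
    mul_pow, Complex.norm_real, Real.norm_eq_abs, sq_abs, mul_div_mul_left _ _ (pow_ne_zero 2 ht)]

/-- The fibre density. -/
def fb (z : C r) (v : C c) : ℂ :=
  top c (P (List.ofFn fun j v => θ (‖(fderiv ℂ S.F (D.σ z)).comp a.A v j‖ ^ 2 /
    nn (D.σ z) ^ S.dg j) + S.dg j * fs (D.σ z)) v)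

theorem G_zero {z : C r} (hz : z ∈ closedBall D.z a.δ) (v : C c) :
    a.G τ (0, ap r c (z, v)) = τ (D.σ z) * top r (L (fun w => fs (D.σ w)) z ^ r) * a.fb z v := by
  have hq : p1 r c (ap r c (z, v)) ∈ closedBall D.z a.δ := by rwa [p1_ap]
  have h0 (y) : a.Ψ 0 y = D.σ (p1 r c y) := by simp [Ψ]
  have h1 : D.σ z ≠ 0 := fun h => by simpa [h] using (a.base _ hz).2.2.1
  have h2 := P_comp ((p1 r c).analyticAt (ap r c (z, v)))
    (us := List.replicate r fun w => fs (D.σ w)) fun u hu => by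
      rw [List.eq_of_mem_replicate hu, p1_ap]
      exact (lh_fs.sm _ h1).comp z (an_cd (a.base _ hz).2.1)
  have h3 := P_comp (φ := fun w => ap r c (z, w)) (z := v) (((ap r c).analyticAt _).comp
    (analyticAt_const.prod analyticAt_id)) (us := List.ofFn fun j y => a.W j (0, y)) fun u hu => by
      obtain ⟨j, rfl⟩ := List.mem_ofFn.1 hu
      exact ((a.cd_ws hq).2 _ (List.mem_append_left _ (List.mem_ofFn.2 ⟨j, rfl⟩))).comp _
        (contDiffAt_const.prodMk contDiffAt_id)
  rw [p1_ap, List.map_replicate] at h2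
  simp only [G, ws, List.map_append, List.map_ofFn, List.map_replicate, P_append, h0, h2, p1_ap,
    Function.comp_def]
  rw [map_smul, top_split z v (by
      simpa using P_mem (gs := List.replicate r fun w => fs (D.σ w)) (z := z))
    (fun y => h2 ▸ P_comm y) (by
      rw [← h3]
      simpa using P_mem (gs := (List.ofFn fun j y => a.W j (0, y)).map fun u y => u (ap r c (z, y)))),
    ← h3, P_replicate, smul_eq_mul, mul_assoc, fb, List.map_ofFn]
  simp only [Function.comp_def, W, h0, p1_ap, p2_ap, S.Q0, ContinuousLinearMap.comp_apply]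

theorem ex_M : ∃ M : ℝ, 0 < M ∧ ∀ q ∈ closedBall (D.z, (0 : C c)) a.δ, ∀ j,
    nn (D.σ q.1 + a.A q.2) ^ S.dg j ≤ M ^ 2 := by
  obtain ⟨M, hM⟩ := (isCompact_closedBall (D.z, (0 : C c)) a.δ).exists_bound_of_continuousOn
    (f := fun q j => nn (D.σ q.1 + a.A q.2) ^ S.dg j) fun q hq =>
      (continuousAt_pi.2 fun j => (cd_nn.continuous.continuousAt.comp
        (((a.base q.1 (by rw [← closedBall_prod_same] at hq; exact hq.1)).2.1.continuousAt.comp
          continuousAt_fst).add (a.A.continuous.continuousAt.comp continuousAt_snd))).pow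
            _).continuousWithinAt
  refine ⟨|M| + 1, by positivity, fun q hq j => ?_⟩
  have h := (le_abs_self _).trans ((norm_le_pi_norm _ j).trans (hM q hq))
  nlinarith [le_abs_self M, abs_nonneg M]

theorem lim (hτ : Inv τ) (hs : ∀ y, τ (ins D.i y) ≠ 0 → ‖y - aff D.i (D.σ D.z)‖ < a.ε) :
    Tendsto (fun t => ∫ y, dn τ (S.us r t) (ins D.i) y) (𝓝[>] 0) (𝓝 ((-(4 * Real.pi)) ^ c *
      ∫ z in closedBall D.z a.δ, τ (D.σ z) * top r (L (fun w => fs (D.σ w)) z ^ r))) := by
  obtain ⟨M, Mp, hM⟩ := a.ex_M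
  let K : Set (C (r + c)) := {q | p1 r c q ∈ closedBall D.z a.δ ∧ ‖p2 r c q‖ ≤ 2 * M}
  have hK : IsCompact K := by
    have h : K = ap r c '' (closedBall D.z a.δ ×ˢ closedBall 0 (2 * M)) :=
      Subset.antisymm (fun q hq => ⟨(p1 r c q, p2 r c q), ⟨hq.1, mem_closedBall_zero_iff.2 hq.2⟩,
        ap_p q⟩) (by
        rintro _ ⟨p, hp, rfl⟩
        exact ⟨by rw [p1_ap]; exact hp.1, by rw [p2_ap]; exact mem_closedBall_zero_iff.1 hp.2⟩)
    rw [h]
    exact ((isCompact_closedBall _ _).prod (isCompact_closedBall _ _)).image (ap r c).continuous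
  have t0 : 0 < a.δ / (2 * M) := by have := a.δp; positivity
  have h1 (t : ℝ) : ContinuousOn (fun q => a.G τ (t, q)) K := fun q hq =>
    (ContinuousAt.comp (f := fun q => (t, q)) (a.ct_G hτ hq.1)
      (continuous_const.prodMk continuous_id).continuousAt).continuousWithinAt
  obtain ⟨b, hb⟩ := ((isCompact_Icc (a := 0) (b := a.δ / (2 * M))).prod
    hK).exists_bound_of_continuousOn (f := a.G τ) fun p hp => (a.ct_G hτ hp.2.1).continuousWithinAt
  have h2 : ContinuousWithinAt (fun t => ∫ q in K, a.G τ (t, q)) (Icc 0 (a.δ / (2 * M))) 0 :=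
    continuousWithinAt_of_dominated (bound := fun _ => b)
      (.of_forall fun t => (h1 t).aestronglyMeasurable hK.measurableSet)
      (eventually_nhdsWithin_of_forall fun t ht => (ae_restrict_iff' hK.measurableSet).2
        (.of_forall fun q hq => hb (t, q) ⟨ht, hq⟩))
      (integrableOn_const hK.measure_lt_top.ne)
      ((ae_restrict_iff' hK.measurableSet).2 (.of_forall fun q hq =>
        (ContinuousAt.comp (f := fun t => (t, q)) (a.ct_G hτ hq.1)
          (continuous_id.prodMk continuous_const).continuousAt).continuousWithinAt))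
  have h3 : ∫ q in K, a.G τ (0, q) = (-(4 * Real.pi)) ^ c *
      ∫ z in closedBall D.z a.δ, τ (D.σ z) * top r (L (fun w => fs (D.σ w)) z ^ r) := by
    rw [← integral_indicator hK.measurableSet, int_ap ((integrable_indicator_iff
      hK.measurableSet).2 ((h1 0).integrableOn_compact hK)), ← integral_const_mul,
      ← integral_indicator measurableSet_closedBall]
    refine integral_congr_ae (.of_forall fun z => ?_)
    by_cases hz : z ∈ closedBall D.z a.δ
    · have h4 := (a.base z hz).2.2.2.2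
      have h5 (j) : 0 < nn (D.σ z) ^ S.dg j :=
        pow_pos (nn_pos fun h => by simpa [h] using (a.base _ hz).2.2.1) _
      rw [indicator_of_mem hz, mul_comm, ← fib ((fderiv ℂ S.F (D.σ z)).comp a.A)
        ((injective_iff_map_eq_zero _).2 fun v hv => norm_le_zero_iff.1 ((h4 v).trans (by
          rw [show fderiv ℂ S.F (D.σ z) (a.A v) = 0 from hv]; simp))) h5 fun j => S.dg j * fs (D.σ z),
        ← integral_const_mul]
      refine integral_congr_ae (.of_forall fun v => ?_)
      by_cases hv : ‖v‖ ≤ 2 * M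
      · exact (indicator_of_mem (show _ ∈ K from ⟨by rwa [p1_ap], by rwa [p2_ap]⟩) _).trans
          (a.G_zero hz v)
      · refine (indicator_of_notMem (fun h => hv (by simpa [p2_ap] using h.2)) _).trans ?_
        obtain ⟨j, hj⟩ : ∃ j, M < ‖fderiv ℂ S.F (D.σ z) (a.A v) j‖ := by
          by_contra! h
          linarith [(pi_norm_le_iff_of_nonneg Mp.le).2 h, h4 v]
        have h6 := hM (z, 0) (by simpa [Prod.dist_eq, a.δp.le] using hz) j
        simp only [map_zero, add_zero] at h6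
        refine (mul_eq_zero_of_right _ ((congrArg (top c) (P_zero (List.mem_ofFn.2 ⟨j, rfl⟩) (L_van
          (a := fun v => (fderiv ℂ S.F (D.σ z)).comp a.A v j) (H := fun _ => nn (D.σ z) ^ S.dg j)
          (analyticAt_pi_iff.1 (ContinuousLinearMap.analyticAt _ _) j) continuousAt_const (h5 j)
          (h6.trans_lt (pow_lt_pow_left₀ hj Mp.le two_ne_zero))
          (S.dg j * fs (D.σ z) - Real.log (nn (D.σ z) ^ S.dg j))
          (.of_forall fun y => by ring)))).trans (map_zero _))).symm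
    · rw [indicator_of_notMem hz]
      exact integral_eq_zero_of_ae (.of_forall fun v =>
        indicator_of_notMem (fun h => hz (by simpa [p1_ap] using h.1)) _)
  rw [← h3]
  refine (h2.tendsto.mono_left (nhdsWithin_le_of_mem
    (mem_of_superset (Ioc_mem_nhdsGT t0) Ioc_subset_Icc_self))).congr' ?_
  filter_upwards [Ioc_mem_nhdsGT t0] with t ht
  have h4 : (t : ℂ) ≠ 0 := by exact_mod_cast ht.1.ne'
  have h5 (q) (hq : q ∈ K) : (p1 r c q, (t : ℂ) • p2 r c q) ∈ closedBall (D.z, (0 : C c)) a.δ := by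
    rw [← closedBall_prod_same]
    refine ⟨hq.1, ?_⟩
    rw [mem_closedBall_zero_iff, norm_smul, Complex.norm_real, Real.norm_of_nonneg ht.1.le]
    exact (mul_le_mul_of_nonneg_left hq.2 ht.1.le).trans ((le_div_iff₀ (by positivity)).1 ht.2)
  rw [← setIntegral_congr_fun hK.measurableSet fun q hq => a.G_eq ht.1.ne' hq.1,
    ← (cvk (k := D.i) hτ (S.ll r ht.1.ne') hK.measurableSet
      (fun q hq => ⟨a.Ψ_an hq.1, by simp [a.Ψ_i hq.1]⟩) fun p hp q hq e => ?_).1]
  · refine setIntegral_eq_integral_of_forall_compl_eq_zero fun y hy => ?_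
    by_contra h
    obtain ⟨q, hq, e⟩ := a.nb y (hs y fun h0 => h (by simp [dn, h0]))
    have h6 : ‖S.F (ins D.i y)‖ ≤ t * M :=
      (pi_norm_le_iff_of_nonneg (by have := ht.1; positivity)).2 fun j => by
        by_contra! h7
        have h8 := hM q hq j
        rw [← e] at h8
        rw [dn, S.van r ht.1.ne' (an_ins y) (ins_ne_zero _ _) (j := j)
          ((mul_le_mul_of_nonneg_left h8 (sq_nonneg t)).trans_lt (mul_pow t M 2 ▸
            pow_lt_pow_left₀ h7 (by have := ht.1; positivity) two_ne_zero))] at h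
        simp at h
    have h7 := a.low q hq
    rw [← closedBall_prod_same] at hq
    refine hy ⟨ap r c (q.1, (t : ℂ)⁻¹ • q.2), ⟨by simpa [p1_ap] using hq.1, ?_⟩, ?_⟩
    · rw [p2_ap, norm_smul, norm_inv, Complex.norm_real, Real.norm_of_nonneg ht.1.le,
        inv_mul_le_iff₀ ht.1]
      rw [← e] at h7
      linarith
    · simp [Ψ, p1_ap, p2_ap, smul_smul, h4, ← e]
  · have h6 := a.inj (h5 p hp) (h5 q hq) (by simpa [Ψ] using e)
    rw [← ap_p p, ← ap_p q, (Prod.mk.inj h6).1, smul_right_injective _ h4 (Prod.mk.inj h6).2]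

end Ad

end Vale.Agent.P269HI
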