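import Vale.Agent.P269HI.Top
import Vale.Agent.P264Z.G.CP

/-!
P269, row H7: integrals over projective space of products of curvature forms.
-/

open ExteriorAlgebra MeasureTheory Filter Set
open scoped ContDiff Topology

set_option linter.unusedSectionVars false

noncomputable section

namespace Vale.Agent.P269HI

open P269F P264Z.CP

variable {m n : ℕ}

/-- The logarithm of the squared modulus. -/
def lg (a : ℂ) : ℂ := Real.log (‖a‖ ^ 2)

theorem cd_sq : ContDiff ℝ ∞ fun a : ℂ => ‖a‖ ^ 2 := contDiff_norm_sq ℝ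

theorem cd_lg {a : ℂ} (h : a ≠ 0) : ContDiffAt ℝ ∞ lg a :=
  Complex.ofRealCLM.contDiff.contDiffAt.comp a (cd_sq.contDiffAt.log (by simpa using h))

theorem an_cd {E F : Type} [NormedAddCommGroup E] [NormedSpace ℝ E] [NormedSpace ℂ E]
    [IsScalarTower ℝ ℂ E] [NormedAddCommGroup F] [NormedSpace ℝ F] [NormedSpace ℂ F]
    [IsScalarTower ℝ ℂ F] [CompleteSpace F] {f : E → F} {z : E} (h : AnalyticAt ℂ f z) : ContDiffAt ℝ ∞ f z :=
  h.contDiffAt.restrict_scalars ℝ

theorem L_lg {f : C m → ℂ} {z : C m} (hf : AnalyticAt ℂ f z) (h0 : f z ≠ 0) :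
    L (fun y => lg (f y)) z = 0 := by
  have h1 : AnalyticAt ℂ (fun y => Complex.log (f y / f z)) z :=
    (hf.div_const (c := f z)).clog (by simp [div_self h0])
  let a : ℂ →L[ℝ] ℂ := Complex.ofRealCLM.comp Complex.reCLM
  have h2 := L_comp h1 (u := a) a.contDiff.contDiffAt
  rw [L_clm, map_zero] at h2
  rw [L_congr (g' := fun y => lg (f z) + 2 * a (Complex.log (f y / f z))),
    L_add (g' := fun y => a (Complex.log (f y / f z))) contDiffAt_const
      (a.contDiff.contDiffAt.comp z (an_cd h1)), L_const, h2, smul_zero, add_zero]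
  filter_upwards [hf.continuousAt.eventually_ne h0] with y hy
  simp [a, lg, Complex.log_re, Real.log_div (norm_ne_zero_iff.2 hy) (norm_ne_zero_iff.2 h0)]
  ring

/-- The squared length. -/
def nn (x : C m) : ℝ := ∑ a, ‖x a‖ ^ 2

theorem cd_nn : ContDiff ℝ ∞ (nn : C m → ℝ) :=
  ContDiff.sum fun a _ => cd_sq.comp (contDiff_apply ℝ ℂ a)

theorem le_nn (x : C m) (a : Fin m) : ‖x a‖ ^ 2 ≤ nn x :=
  Finset.single_le_sum (f := fun a => ‖x a‖ ^ 2) (fun _ _ => by positivity) (Finset.mem_univ a)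

theorem nn_pos {x : C m} (h : x ≠ 0) : 0 < nn x :=
  let ⟨a, ha⟩ := Function.ne_iff.1 h
  lt_of_lt_of_le (pow_pos (norm_pos_iff.2 ha) 2) (le_nn x a)

theorem nn_smul (a : ℂ) (x : C m) : nn (a • x) = ‖a‖ ^ 2 * nn x := by
  simp [nn, Finset.mul_sum, mul_pow]

/-- Potentials of hermitian metrics on `O(d)`. -/
structure LH (d : ℂ) (u : C m → ℂ) : Prop where
  sm : ∀ x, x ≠ 0 → ContDiffAt ℝ ∞ u x
  hom : ∀ (a : ℂ) x, a ≠ 0 → x ≠ 0 → u (a • x) = u x + d * lg a

/-- Lists of potentials. -/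
def LL (us : List (C m → ℂ)) : Prop := ∀ u ∈ us, ∃ d, LH d u

/-- Continuous functions on projective space. -/
structure Inv (τ : C m → ℂ) : Prop where
  ct : ∀ x, x ≠ 0 → ContinuousAt τ x
  hom : ∀ (a : ℂ) x, a ≠ 0 → x ≠ 0 → τ (a • x) = τ x

/-- The Fubini-Study potential. -/
def fs (x : C m) : ℂ := Real.log (nn x)

theorem lh_fs : LH 1 (fs : C m → ℂ) :=
  ⟨fun x h => Complex.ofRealCLM.contDiff.contDiffAt.comp x (cd_nn.contDiffAt.log (nn_pos h).ne'),
    fun a x ha h => by
      rw [fs, nn_smul, Real.log_mul (by simpa using ha) (nn_pos h).ne', fs, lg]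
      push_cast
      ring⟩

theorem LL.cons {d : ℂ} {u : C m → ℂ} {us : List (C m → ℂ)} (h : LH d u) (hs : LL us) :
    LL (u :: us) := List.forall_mem_cons.2 ⟨⟨d, h⟩, hs⟩

theorem LL.append {us vs : List (C m → ℂ)} (h : LL us) (hs : LL vs) : LL (us ++ vs) :=
  List.forall_mem_append.2 ⟨h, hs⟩

theorem ll_fs (k : ℕ) : LL (List.replicate k (fs : C m → ℂ)) := fun _ hu =>
  ⟨1, List.eq_of_mem_replicate hu ▸ lh_fs⟩

theorem inv_one : Inv fun _ : C m => 1 := ⟨fun _ _ => continuousAt_const, fun _ _ _ _ => rfl⟩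

/-- The pull back of the product of the curvature forms. -/
def T (us : List (C n → ℂ)) (Φ : C m → C n) : C m → Λ (C m) := P (us.map fun u y => u (Φ y))

variable {us vs : List (C (n + 1) → ℂ)} {τ u φ : C (n + 1) → ℂ} {k l : Fin (n + 1)} {d : ℂ}

theorem an_ins (y : C n) : AnalyticAt ℂ (ins k) y := (contDiff_ins' k).contDiffAt.analyticAt

theorem LH.cd (h : LH d u) : ContDiff ℝ ∞ fun y => u (ins k y) :=
  contDiff_iff_contDiffAt.2 fun y => (h.sm _ (ins_ne_zero k y)).comp y (an_cd (an_ins y))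

theorem LL.cd (h : LL us) : ∀ g ∈ us.map fun u y => u (ins k y), ContDiff ℝ ∞ g := fun g hg => by
  obtain ⟨u, hu, rfl⟩ := List.mem_map.1 hg
  exact (h u hu).choose_spec.cd

theorem LH.L_smul (h : LH d u) {Φ Ψ : C m → C (n + 1)} {a : C m → ℂ} {p : C m}
    (hΨ : AnalyticAt ℂ Ψ p) (h0 : Ψ p ≠ 0) (ha : AnalyticAt ℂ a p) (h1 : a p ≠ 0)
    (e : ∀ᶠ y in 𝓝 p, Φ y = a y • Ψ y) : L (fun y => u (Φ y)) p = L (fun y => u (Ψ y)) p := by
  rw [L_congr (g' := fun y => u (Ψ y) + d * lg (a y)), L_add (g := fun y => u (Ψ y))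
    (g' := fun y => lg (a y)) ((h.sm _ h0).comp p (an_cd hΨ))
    ((cd_lg h1).comp p (an_cd ha)), L_lg ha h1, smul_zero, add_zero]
  filter_upwards [e, hΨ.continuousAt.eventually_ne h0, ha.continuousAt.eventually_ne h1]
    with y a b c
  rw [a, h.hom _ _ c b]

theorem an_aff {Φ : C n → C (n + 1)} {p : C n} (hΦ : AnalyticAt ℂ Φ p) (h0 : Φ p k ≠ 0) :
    AnalyticAt ℂ (fun y => aff k (Φ y)) p := (contDiffAt_aff k h0).analyticAt.comp hΦ

theorem T_eq (h : LL us) {Φ : C n → C (n + 1)} {p : C n} (hΦ : AnalyticAt ℂ Φ p)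
    (h0 : Φ p k ≠ 0) :
    T us Φ p = pb (fun y => aff k (Φ y)) p (T us (ins k) (aff k (Φ p))) := by
  have h1 := analyticAt_pi_iff.1 hΦ k
  rw [T, T, ← P_comp (an_aff hΦ h0) fun g hg => (h.cd g hg).contDiffAt, P, P, List.map_map,
    List.map_map, List.map_map]
  refine congrArg _ (List.map_congr_left fun u hu => (h u hu).choose_spec.L_smul
    ((an_ins _).comp (an_aff hΦ h0)) (ins_ne_zero _ _) h1 h0 ?_)
  exact (h1.continuousAt.eventually_ne h0).mono fun y hy => (smul_ins_aff k hy).symm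

/-- The density in the chart `Φ`. -/
def dn (τ : C (n + 1) → ℂ) (us : List (C (n + 1) → ℂ)) (Φ : C n → C (n + 1)) (y : C n) : ℂ :=
  top n (τ (Φ y) • T us Φ y)

theorem cvk (hτ : Inv τ) (h : LL us) {Φ : C n → C (n + 1)} {W : Set (C n)} (hW : MeasurableSet W)
    (hΦ : ∀ p ∈ W, AnalyticAt ℂ Φ p ∧ Φ p k ≠ 0) (hi : InjOn (fun y => aff k (Φ y)) W) :
    (∫ y in (fun y => aff k (Φ y)) '' W, dn τ us (ins k) y = ∫ y in W, dn τ us Φ y) ∧
      (IntegrableOn (dn τ us (ins k)) ((fun y => aff k (Φ y)) '' W) ↔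
        IntegrableOn (dn τ us Φ) W) :=
  cv hW (fun p hp => (an_aff (hΦ p hp).1 (hΦ p hp).2).differentiableAt) hi
    (u := fun y => τ (Φ y) • T us Φ y) (w := fun y => τ (ins k y) • T us (ins k) y) fun p hp => by
      rw [map_smul, ← T_eq h (hΦ p hp).1 (hΦ p hp).2, ← hτ.hom _ _ (hΦ p hp).2 (ins_ne_zero _ _),
        smul_ins_aff k (hΦ p hp).2]

theorem ins_aff {v : C (n + 1)} (h : v k ≠ 0) : ins k (aff k v) = (v k)⁻¹ • v := by
  conv_rhs => rw [← smul_ins_aff k h]
  simp [smul_smul, h]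

theorem res_eq (k l : Fin (n + 1)) :
    (volume : Measure (C n)).restrict {y | ins l y k ≠ 0} = volume := by
  refine Measure.restrict_eq_self_of_ae_mem ?_
  induction k using Fin.succAboveCases l with
  | x => simp
  | p j =>
    simp only [ins_succAbove]
    exact Measure.ae_eval_ne (fun _ => (volume : Measure ℂ)) j 0

theorem switch (hτ : Inv τ) (h : LL us) (k l : Fin (n + 1)) :
    (∫ y, dn τ us (ins k) y = ∫ y, dn τ us (ins l) y) ∧
      (Integrable (dn τ us (ins k)) ↔ Integrable (dn τ us (ins l))) := by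
  have h1 (k l) {y : C n} (hy : ins l y k ≠ 0) : aff l (ins k (aff k (ins l y))) = y := by
    rw [ins_aff hy, aff_smul l (inv_ne_zero hy), aff_ins]
  have h2 (k l) {y : C n} (hy : ins l y k ≠ 0) : ins k (aff k (ins l y)) l ≠ 0 := by
    simpa [ins_aff hy] using hy
  have h3 := cvk (k := k) hτ h (Φ := ins l) (W := {y | ins l y k ≠ 0})
    (isOpen_ne_fun (contDiff_ins l k).continuous continuous_const).measurableSet
    (fun p hp => ⟨an_ins p, hp⟩) fun a ha b hb e => by
      rw [← h1 k l ha, ← h1 k l hb]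
      exact congrArg (fun y => aff l (ins k y)) e
  rwa [show (fun y => aff k (ins l y)) '' {y | ins l y k ≠ 0} = {y | ins k y l ≠ 0} from
    Subset.antisymm (by rintro _ ⟨y, hy, rfl⟩; exact h2 k l hy)
      fun y hy => ⟨_, h2 l k hy, h1 l k hy⟩, IntegrableOn, IntegrableOn, res_eq, res_eq] at h3

/-- A bump function. -/
def bp (k : Fin (n + 1)) (x : C (n + 1)) : ℝ := expNegInvGlue ((n + 2) * (‖x k‖ ^ 2 / nn x) - 1)

theorem bp_pos {x : C (n + 1)} (h : x ≠ 0) : 0 < ∑ k, bp k x := by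
  obtain ⟨k, -, hk⟩ := Finset.exists_max_image Finset.univ (fun k => ‖x k‖ ^ 2) ⟨0, by simp⟩
  have h1 : nn x ≤ (n + 1) * ‖x k‖ ^ 2 :=
    (Finset.sum_le_sum hk).trans (by simp)
  refine Finset.sum_pos' (fun _ _ => expNegInvGlue.nonneg _)
    ⟨k, Finset.mem_univ _, expNegInvGlue.pos_of_pos ?_⟩
  have h2 := nn_pos h
  rw [sub_pos, ← mul_div_assoc, one_lt_div h2]
  have h3 : 0 < ‖x k‖ ^ 2 := by
    by_contra h4
    nlinarith [sq_nonneg ‖x k‖]
  nlinarith

/-- A smooth partition of unity on projective space. -/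
def pu (k : Fin (n + 1)) (x : C (n + 1)) : ℂ := (bp k x / ∑ l, bp l x : ℝ)

theorem sum_pu {x : C (n + 1)} (h : x ≠ 0) : ∑ k, pu k x = 1 := by
  simp only [pu, ← Complex.ofReal_sum, ← Finset.sum_div, div_self (bp_pos h).ne',
    Complex.ofReal_one]

theorem lh_pu : LH 0 (pu k) := by
  have h1 (k) {x : C (n + 1)} (h : x ≠ 0) : ContDiffAt ℝ ∞ (bp k) x :=
    expNegInvGlue.contDiff.contDiffAt.comp x ((contDiffAt_const.mul
      ((cd_sq.comp (contDiff_apply ℝ ℂ k)).contDiffAt.div cd_nn.contDiffAt (nn_pos h).ne')).sub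
        contDiffAt_const)
  refine ⟨fun x h => Complex.ofRealCLM.contDiff.contDiffAt.comp x
    ((h1 k h).div (ContDiffAt.sum fun l _ => h1 l h) (bp_pos h).ne'), fun a x ha h => ?_⟩
  have h2 : ‖a‖ ^ 2 ≠ 0 := by simpa using ha
  simp [pu, bp, nn_smul, mul_pow, mul_div_mul_left _ _ h2]

theorem cs_pu : HasCompactSupport fun y => pu k (ins k y) := by
  refine HasCompactSupport.intro (isCompact_closedBall 0 (n + 2)) fun y hy => ?_
  have h0 : (0 : ℝ) ≤ n := n.cast_nonneg
  rw [mem_closedBall_zero_iff, pi_norm_le_iff_of_nonneg (by positivity), not_forall] at hy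
  obtain ⟨j, hj⟩ := hy
  have h1 := le_nn (ins k y) (k.succAbove j)
  rw [ins_succAbove] at h1
  rw [pu, bp, expNegInvGlue.zero_of_nonpos]
  · simp
  · rw [sub_nonpos, ← mul_div_assoc, div_le_one (nn_pos (ins_ne_zero k y))]
    simp only [ins_same, norm_one]
    nlinarith [not_le.1 hj]

theorem LH.inv (h : LH 0 φ) : Inv φ :=
  ⟨fun x hx => (h.sm x hx).continuousAt, fun a x ha hx => by simpa using h.hom a x ha hx⟩

theorem Inv.mul (h : Inv φ) (h' : Inv τ) : Inv fun x => φ x * τ x :=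
  ⟨fun x hx => (h.ct x hx).mul (h'.ct x hx), fun a x ha hx => by
    rw [h.hom a x ha hx, h'.hom a x ha hx]⟩

theorem ct_dn (hτ : Inv τ) (h : LL us) : Continuous (dn τ us (ins k)) :=
  continuous_iff_continuousAt.2 fun y => (cl (top n)).continuous.continuousAt.comp
    (((hτ.ct _ (ins_ne_zero k y)).comp (an_ins y).continuousAt).smul
      (cd_P fun g hg => (h.cd g hg).contDiffAt).1.continuousAt)

theorem int_dn (hτ : Inv τ) (h : LL us) : Integrable (dn τ us (ins l)) := by
  have h1 : dn τ us (ins l) = fun y => ∑ k, dn (fun x => pu k x * τ x) us (ins l) y :=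
    funext fun y => by
      simp only [dn, ← map_sum, ← Finset.sum_smul, ← Finset.sum_mul, sum_pu (ins_ne_zero l y),
        one_mul]
  rw [h1]
  refine integrable_finsetSum _ fun k _ => (switch (lh_pu.inv.mul hτ) h k l).2.1
    ((ct_dn (lh_pu.inv.mul hτ) h).integrable_of_hasCompactSupport ((cs_pu (k := k)).mono ?_))
  intro y hy h0
  exact hy (by simp [dn, show pu k (ins k y) = 0 from h0])

/-- The integral over projective space. -/
def I (us : List (C (n + 1) → ℂ)) : ℂ := ∫ y, dn (fun _ => 1) us (ins 0) y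

theorem L_sum {ι : Type} (s : Finset ι) {g : ι → C m → ℂ} (h : ∀ i, ContDiff ℝ ∞ (g i)) (z : C m) :
    L (fun y => ∑ i ∈ s, g i y) z = ∑ i ∈ s, L (g i) z := by
  classical
  induction s using Finset.induction_on with
  | empty => simp [L_const]
  | insert i s hi ih =>
    have h1 := L_add (h i).contDiffAt (ContDiff.sum (s := s) fun i _ => h i).contDiffAt (z := z) 1
    simp only [one_mul, one_smul] at h1
    simp only [Finset.sum_insert hi, h1, ih]

theorem stokes (hφ : LH 0 φ) (h : LL us) : I (φ :: us) = 0 := by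
  have h0 (k : Fin (n + 1)) : LH 0 fun x => pu k x * φ x :=
    ⟨fun x hx => (lh_pu.sm x hx).mul (hφ.sm x hx), fun a x ha hx => by
      simpa using (lh_pu.inv.mul hφ.inv).hom a x ha hx⟩
  have h1 : dn (fun _ => 1) (φ :: us) (ins 0) =
      fun y => ∑ k, dn (fun _ => 1) ((fun x => pu k x * φ x) :: us) (ins 0) y := funext fun y => by
    simp only [dn, one_smul, T, List.map_cons, P_cons, ← map_sum, ← Finset.sum_mul,
      ← L_sum _ fun k => (h0 k).cd, sum_pu (ins_ne_zero 0 _), one_mul]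
  rw [I, h1, integral_finsetSum _ fun k _ => int_dn inv_one (LL.cons (h0 k) h)]
  refine Finset.sum_eq_zero fun k _ => ((switch inv_one (LL.cons (h0 k) h) 0 k).1.trans ?_)
  simp only [dn, one_smul]
  exact int_P volume (top n) (h0 k).cd cs_pu.mul_right h.cd

theorem I_cons (hu : LH d u) (h : LL us) : I (u :: us) = d * I (fs :: us) := by
  have h0 : LH 0 fun x => u x + -d * fs x :=
    ⟨fun x hx => (hu.sm x hx).add (contDiffAt_const.mul (lh_fs.sm x hx)), fun a x ha hx => by
      rw [hu.hom a x ha hx, lh_fs.hom a x ha hx]; ring⟩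
  have h1 := stokes h0 h
  have h2 : dn (fun _ => 1) ((fun x => u x + -d * fs x) :: us) (ins 0) = fun y =>
      dn (fun _ => 1) (u :: us) (ins 0) y + -d * dn (fun _ => 1) (fs :: us) (ins 0) y :=
    funext fun y => by
      simp only [dn, one_smul, T, List.map_cons, P_cons, L_add hu.cd.contDiffAt lh_fs.cd.contDiffAt,
        add_mul, smul_mul_assoc, map_add, map_smul, smul_eq_mul]
  rw [I, h2, integral_add (int_dn inv_one (LL.cons hu h))
    ((int_dn inv_one (LL.cons lh_fs h)).const_mul _), integral_const_mul] at h1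
  exact (eq_neg_of_add_eq_zero_left h1).trans (by rw [neg_mul, neg_neg]; rfl)

theorem I_move : I (u :: (us ++ vs)) = I (us ++ u :: vs) := by
  simp only [I, dn, T, List.map_cons, List.map_append, P_cons, P_append, ← mul_assoc,
    (P_comm (L _ _)).eq]

theorem I_rep {ds : List ℂ} (h : List.Forall₂ LH ds us) (hv : LL vs) :
    I (us ++ vs) = ds.prod * I (List.replicate us.length fs ++ vs) := by
  induction h generalizing vs with
  | nil => simp
  | @cons d u ds us hu h ih =>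
    have h1 : LL us := fun v hv => by
      obtain ⟨i, hi, rfl⟩ := List.getElem_of_mem hv
      exact ⟨_, h.get (h.length_eq ▸ hi) hi⟩
    rw [List.cons_append, I_cons hu (h1.append hv), I_move, ih (LL.cons lh_fs hv), ← I_move,
      List.prod_cons, mul_assoc]
    rfl

end Vale.Agent.P269HI
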