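import Vale.Agent.P269HI.Kit

/-!
P269, row H7: the top degree part, change of variables, products, Stokes.
-/

open ExteriorAlgebra MeasureTheory Filter Set
open scoped ContDiff Topology

set_option linter.unusedSectionVars false

noncomputable section

namespace Vale.Agent.P269HI

open P269F

/-- The complex `m`-space. -/
abbrev C (m : ℕ) : Type := Fin m → ℂ

variable {m n r c : ℕ}

/-- The real basis. -/
def rb (m : ℕ) : Module.Basis (Fin (m * 2)) ℝ (C m) :=
  (Pi.basis fun _ : Fin m => Complex.basisOneI).reindex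
    ((Equiv.sigmaEquivProd _ _).trans finProdFinEquiv)

theorem rb_apply (k : Fin (m * 2)) :
    rb m k = Pi.single k.divNat (if k.modNat = 0 then 1 else Complex.I) := by
  rw [rb, Module.Basis.reindex_apply, Pi.basis_apply]
  show (Pi.single k.divNat (Complex.basisOneI k.modNat) : C m) = _
  generalize k.modNat = j
  fin_cases j <;> simp

theorem top_iM (h : n = m * 2) (v : Fin n → C m →L[ℝ] ℂ) :
    top m (ιMulti ℂ n v) = (Matrix.of fun l k : Fin n => v l (rb m (k.cast h))).det := by
  subst h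
  rw [top, liftAlternating_apply_ιMulti, Pi.single_eq_same]
  simp only [rb_apply]
  rfl

theorem top_ne (h : n ≠ m * 2) (v : Fin n → C m →L[ℝ] ℂ) : top m (ιMulti ℂ n v) = 0 := by
  rw [top, liftAlternating_apply_ιMulti, Pi.single_eq_of_ne h]
  rfl

theorem pb_iM (f : C m → C r) (z : C m) (v : Fin n → C r →L[ℝ] ℂ) :
    pb f z (ιMulti ℂ n v) = ιMulti ℂ n fun l => (v l).comp (fderiv ℝ f z) := map_apply_ιMulti _ _

theorem top_pb (f : C m → C m) (z : C m) (x : Λ (C m)) :
    top m (pb f z x) = ((fderiv ℝ f z).det : ℂ) * top m x := by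
  have h : top m ∘ₗ (pb f z).toLinearMap = ((fderiv ℝ f z).det : ℂ) • top m := by
    refine lhom_ext fun i => AlternatingMap.ext fun v => ?_
    show top m (pb f z (ιMulti ℂ i v)) = _ * top m (ιMulti ℂ i v)
    rw [pb_iM]
    by_cases hi : i = m * 2
    · subst hi
      rw [top_iM rfl, top_iM rfl, ContinuousLinearMap.det, ← LinearMap.det_toMatrix (rb m),
        mul_comm ((_ : ℝ) : ℂ), ← Complex.coe_algebraMap, RingHom.map_det, ← Matrix.det_mul]
      congr 1
      ext l k
      show v l (fderiv ℝ f z (rb m k)) = _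
      conv_lhs => rw [← (rb m).sum_repr (fderiv ℝ f z (rb m k)), map_sum]
      simp [Matrix.mul_apply, LinearMap.toMatrix_apply, mul_comm]
    · rw [top_ne hi, top_ne hi, mul_zero]
  exact LinearMap.congr_fun h x

theorem det_nonneg {f : C m → C m} {z : C m} (hf : DifferentiableAt ℂ f z) :
    0 ≤ (fderiv ℝ f z).det := by
  rw [hf.fderiv_restrictScalars ℝ, ContinuousLinearMap.det]
  show 0 ≤ LinearMap.det ((fderiv ℂ f z).toLinearMap.restrictScalars ℝ)
  rw [LinearMap.det_restrictScalars, Algebra.norm_complex_apply]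
  exact Complex.normSq_nonneg _

/-- Change of variables. -/
theorem cv {f : C m → C m} {W : Set (C m)} (hW : MeasurableSet W)
    (hf : ∀ z ∈ W, DifferentiableAt ℂ f z) (hi : InjOn f W) {u w : C m → Λ (C m)}
    (h : ∀ z ∈ W, u z = pb f z (w (f z))) :
    (∫ y in f '' W, top m (w y) = ∫ z in W, top m (u z)) ∧
      (IntegrableOn (fun y => top m (w y)) (f '' W) ↔ IntegrableOn (fun z => top m (u z)) W) := by
  have h1 : ∀ z ∈ W, HasFDerivWithinAt f (fderiv ℝ f z) W z := fun z hz =>
    ((hf z hz).restrictScalars ℝ).hasFDerivAt.hasFDerivWithinAt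
  have h2 : EqOn (fun z => |(fderiv ℝ f z).det| • top m (w (f z))) (fun z => top m (u z)) W :=
    fun z hz => by
      simp only [h z hz, top_pb, abs_of_nonneg (det_nonneg (hf z hz)), Complex.real_smul]
  rw [integral_image_eq_integral_abs_det_fderiv_smul volume hW h1 hi,
    integrableOn_image_iff_integrableOn_abs_det_fderiv_smul volume hW h1 hi]
  exact ⟨setIntegral_congr_fun hW h2, integrableOn_congr_fun h2 hW⟩

variable (r c) in
/-- The first projection. -/
def p1 : C (r + c) →L[ℂ] C r :=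
  ContinuousLinearMap.pi fun i => ContinuousLinearMap.proj (Fin.castAdd c i)

variable (r c) in
/-- The second projection. -/
def p2 : C (r + c) →L[ℂ] C c :=
  ContinuousLinearMap.pi fun i => ContinuousLinearMap.proj (Fin.natAdd r i)

variable (r c) in
/-- Concatenation. -/
def ap : C r × C c →L[ℂ] C (r + c) :=
  ContinuousLinearMap.pi fun k => Fin.addCases (motive := fun _ => C r × C c →L[ℂ] ℂ)
    (fun i => (ContinuousLinearMap.proj i).comp (ContinuousLinearMap.fst ℂ _ _))
    (fun i => (ContinuousLinearMap.proj i).comp (ContinuousLinearMap.snd ℂ _ _)) k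

theorem p1_ap (p : C r × C c) : p1 r c (ap r c p) = p.1 := funext fun i => by simp [p1, ap]

theorem p2_ap (p : C r × C c) : p2 r c (ap r c p) = p.2 := funext fun i => by simp [p2, ap]

theorem ap_p (q : C (r + c)) : ap r c (p1 r c q, p2 r c q) = q := funext fun k => by
  induction k using Fin.addCases <;> simp [p1, p2, ap]

theorem norm_ap (p : C r × C c) : ‖ap r c p‖ = ‖p‖ := by
  have h (p) : ap r c p = Fin.appendIsometry r c p := funext fun k => by
    show _ = Fin.append p.1 p.2 k
    induction k using Fin.addCases <;> simp [ap]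
  rw [← dist_zero_right, ← map_zero (ap r c), h, h, IsometryEquiv.dist_eq, dist_zero_right]

theorem int_ap {F : C (r + c) → ℂ} (hF : Integrable F) :
    ∫ q, F q = ∫ z, ∫ v, F (ap r c (z, v)) := by
  let e := (MeasurableEquiv.sumPiEquivProdPi fun _ : Fin r ⊕ Fin c => ℂ).symm.trans
    (MeasurableEquiv.piCongrLeft (fun _ => ℂ) finSumFinEquiv)
  have h : MeasurePreserving e volume volume :=
    (volume_measurePreserving_piCongrLeft (fun _ => ℂ) finSumFinEquiv).comp
      (volume_measurePreserving_sumPiEquivProdPi_symm fun _ : Fin r ⊕ Fin c => ℂ)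
  have h1 (p) : e p = ap r c p := funext fun k => by
    obtain ⟨k, rfl⟩ := finSumFinEquiv.surjective k
    refine (MeasurableEquiv.piCongrLeft_apply_apply (β := fun _ => ℂ) finSumFinEquiv _ k).trans ?_
    cases k <;> simp [ap, MeasurableEquiv.sumPiEquivProdPi]
  rw [← h.integral_comp' F]
  refine (integral_prod _ ((h.integrable_comp_emb e.measurableEmbedding).2 hF)).trans ?_
  simp only [Function.comp, h1]

theorem pb_clm {E F : Type} [NormedAddCommGroup E] [NormedSpace ℝ E] [FiniteDimensional ℝ E]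
    [NormedAddCommGroup F] [NormedSpace ℝ F] [FiniteDimensional ℝ F] [NormedSpace ℂ E]
    [IsScalarTower ℝ ℂ E] [NormedSpace ℂ F] [IsScalarTower ℝ ℂ F] (A : E →L[ℂ] F) (z : E)
    (a : F →L[ℝ] ℂ) : pb A z (ι ℂ a) = ι ℂ (a.comp (A.restrictScalars ℝ)) := by
  rw [pb_i, show fderiv ℝ A z = _ from (A.restrictScalars ℝ).fderiv]

theorem ext_ind {P : Λ (C m) → Prop} (h0 : P 0) (hv : ∀ v, P (ιMulti ℂ n v))
    (ha : ∀ x y, P x → P y → P (x + y)) (hs : ∀ (s : ℂ) x, P x → P (s • x)) {x : Λ (C m)}
    (hx : x ∈ ⋀[ℂ]^n (C m →L[ℝ] ℂ)) : P x := by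
  rw [← ιMulti_span_fixedDegree] at hx
  induction hx using Submodule.span_induction with
  | mem x hx => obtain ⟨v, rfl⟩ := hx; exact hv v
  | zero => exact h0
  | add x y _ _ a b => exact ha x y a b
  | smul s x _ a => exact hs s x a

theorem top_mul (q : C (r + c)) {x : Λ (C r)} {y : Λ (C c)} (hx : x ∈ ⋀[ℂ]^(r * 2) _)
    (hy : y ∈ ⋀[ℂ]^(c * 2) _) :
    top (r + c) (pb (p1 r c) q x * pb (p2 r c) q y) = top r x * top c y := by
  refine ext_ind (P := fun x => top (r + c) (pb (p1 r c) q x * pb (p2 r c) q y) = top r x * top c y)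
    (by simp) (fun a => ?_) (fun _ _ a b => by simp only [map_add, add_mul, a, b])
    (fun s _ a => by simp only [map_smul, smul_mul_assoc, a]) hx
  refine ext_ind (P := fun y => top (r + c) (pb (p1 r c) q (ιMulti ℂ _ a) * pb (p2 r c) q y) =
      top r (ιMulti ℂ _ a) * top c y)
    (by simp) (fun b => ?_) (fun _ _ a b => by simp only [map_add, mul_add, a, b])
    (fun s _ a => by simp only [map_smul, mul_smul_comm, a]) hy
  have e : r * 2 + c * 2 = (r + c) * 2 := by ring
  rw [pb_iM, pb_iM, ιMulti_mul_ιMulti, top_iM e, top_iM rfl,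
    top_iM rfl, ← Matrix.det_fromBlocks_zero₂₁ _ 0, ← Matrix.det_submatrix_equiv_self finSumFinEquiv]
  have f1 : fderiv ℝ (p1 r c) q = _ := ((p1 r c).restrictScalars ℝ).fderiv
  have f2 : fderiv ℝ (p2 r c) q = _ := ((p2 r c).restrictScalars ℝ).fderiv
  have a1 (k : Fin (r * 2)) : rb (r + c) ((Fin.castAdd (c * 2) k).cast e) = ap r c (rb r k, 0) := by
    have h1 : ((Fin.castAdd (c * 2) k).cast e).divNat = Fin.castAdd c k.divNat := rfl
    have h2 : ((Fin.castAdd (c * 2) k).cast e).modNat = k.modNat := rfl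
    rw [rb_apply, rb_apply, h1, h2]
    funext l
    induction l using Fin.addCases with
    | left l => simp [ap, Pi.single_apply]
    | right l =>
      rw [Pi.single_eq_of_ne (by simp [Fin.ext_iff]; omega)]
      simp [ap]
  have a2 (k : Fin (c * 2)) : rb (r + c) ((Fin.natAdd (r * 2) k).cast e) = ap r c (0, rb c k) := by
    have h1 : ((Fin.natAdd (r * 2) k).cast e).divNat = Fin.natAdd r k.divNat :=
      Fin.ext (by simp [Fin.divNat]; omega)
    have h2 : ((Fin.natAdd (r * 2) k).cast e).modNat = k.modNat :=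
      Fin.ext (by simp [Fin.modNat])
    rw [rb_apply, rb_apply, h1, h2]
    funext l
    induction l using Fin.addCases with
    | left l =>
      rw [Pi.single_eq_of_ne (by simp [Fin.ext_iff]; omega)]
      simp [ap]
    | right l => simp [ap, Pi.single_apply]
  congr 1
  ext (l | l) (k | k) <;> simp [f1, f2, a1, a2, p1_ap, p2_ap]

theorem i_mul (a : C r →L[ℝ] ℂ) {x : Λ (C r)} (hx : x ∈ ⋀[ℂ]^(r * 2) _) : ι ℂ a * x = 0 := by
  refine ext_ind (P := fun x => ι ℂ a * x = 0) (mul_zero _) (fun v => ?_)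
    (fun _ _ a b => by simp only [mul_add, a, b, add_zero])
    (fun s _ a => by simp only [mul_smul_comm, a, smul_zero]) hx
  have h := ιMulti_succ_apply (R := ℂ) (Matrix.vecCons a v)
  rw [Matrix.cons_val_zero, Matrix.tail_cons] at h
  rw [← h]
  refine AlternatingMap.map_linearDependent _ _ fun hl => ?_
  have h1 := hl.fintype_card_le_finrank
  have h2 := LinearMap.finrank_le_finrank_of_injective (f := (⟨⟨fun a k => a (rb r k),
    fun _ _ => rfl⟩, fun _ _ => rfl⟩ : (C r →L[ℝ] ℂ) →ₗ[ℂ] Fin (r * 2) → ℂ)) fun a b h =>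
      ContinuousLinearMap.coe_injective ((rb r).ext (congrFun h))
  simp at h1 h2
  omega

/-- Only the vertical part of `y` matters. -/
theorem top_split (z : C r) (v : C c) {x : Λ (C r)} (hx : x ∈ ⋀[ℂ]^(r * 2) _)
    (hc : ∀ y, Commute (pb (p1 r c) (ap r c (z, v)) x) y) {y : Λ (C (r + c))}
    (hy : pb (fun w => ap r c (z, w)) v y ∈ ⋀[ℂ]^(c * 2) _) :
    top (r + c) (y * pb (p1 r c) (ap r c (z, v)) x) =
      top r x * top c (pb (fun w => ap r c (z, w)) v y) := by
  rw [← top_mul (ap r c (z, v)) hx hy, ← hc y]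
  congr 1
  clear hy
  induction y using ExteriorAlgebra.induction with
  | algebraMap s => simp
  | ι a =>
    have h1 : fderiv ℝ (fun w => ap r c (z, w)) v =
        ((ap r c).comp (ContinuousLinearMap.inr ℂ _ _)).restrictScalars ℝ :=
      (((ap r c).hasFDerivAt.comp v (hasFDerivAt_prodMk_right z v)).restrictScalars ℝ).fderiv
    let a1 := a.comp (((ap r c).comp (ContinuousLinearMap.inl ℂ _ _)).restrictScalars ℝ)
    let a2 := a.comp (((ap r c).comp (ContinuousLinearMap.inr ℂ _ _)).restrictScalars ℝ)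
    have h2 := congrArg (pb (p1 r c) (ap r c (z, v))) (i_mul a1 hx)
    rw [map_mul, map_zero, ← hc, pb_clm] at h2
    have h3 : a = a2.comp ((p2 r c).restrictScalars ℝ) + a1.comp ((p1 r c).restrictScalars ℝ) :=
      ContinuousLinearMap.ext fun q => by
        conv_lhs => rw [← ap_p q]
        show _ = a (ap r c (0, p2 r c q)) + a (ap r c (p1 r c q, 0))
        rw [← map_add, ← map_add, Prod.mk_add_mk, zero_add, add_zero]
    rw [pb_i, pb_clm, h1]
    conv_lhs => rw [h3, map_add, mul_add, h2, add_zero]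
  | mul a b ha hb =>
    rw [map_mul, map_mul, ← mul_assoc, ha, (hc _).eq, mul_assoc, hb, ← mul_assoc, ← (hc _).eq,
      mul_assoc]
  | add a b ha hb => simp only [map_add, mul_add, ha, hb]

section
variable {E F : Type} [NormedAddCommGroup E] [NormedSpace ℝ E] [FiniteDimensional ℝ E]
  [NormedSpace ℂ E] [IsScalarTower ℝ ℂ E] [NormedAddCommGroup F] [NormedSpace ℝ F]
  [FiniteDimensional ℝ F] [NormedSpace ℂ F] [IsScalarTower ℝ ℂ F]

/-- The product of the forms `L g`. -/
def P (gs : List (E → ℂ)) (z : E) : Λ E := (gs.map fun g => L g z).prod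

variable {gs hs : List (E → ℂ)} {g : E → ℂ} {z : E}

theorem P_cons : P (g :: gs) z = L g z * P gs z := rfl

theorem P_append : P (gs ++ hs) z = P gs z * P hs z := by simp [P]

theorem P_replicate (k : ℕ) : P (List.replicate k g) z = L g z ^ k := by simp [P]

theorem P_comm (x : Λ E) : Commute (P gs z) x :=
  Commute.list_prod_left _ _ fun y hy => by
    obtain ⟨g, -, rfl⟩ := List.mem_map.1 hy
    exact lev_comm _ x

theorem P_mem : P gs z ∈ ⋀[ℂ]^(gs.length * 2) (E →L[ℝ] ℂ) := by
  induction gs with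
  | nil => exact SetLike.one_mem_graded (fun i => ⋀[ℂ]^i (E →L[ℝ] ℂ))
  | cons g gs ih =>
    rw [List.length_cons, add_mul, add_comm]
    exact SetLike.mul_mem_graded (A := fun i => ⋀[ℂ]^i (E →L[ℝ] ℂ)) (lev_mem _) ih

theorem cd_P (h : ∀ g ∈ gs, ContDiffAt ℝ ∞ g z) : ContDiffAt ℝ ∞ (P gs) z ∧ D (P gs) z = 0 := by
  induction gs with
  | nil => exact ⟨contDiffAt_const, by simp [D, show P ([] : List (E → ℂ)) = fun _ => 1 from rfl]⟩
  | cons g gs ih =>
    obtain ⟨h1, h2⟩ := ih fun g hg => h g (List.mem_cons_of_mem _ hg)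
    have h3 := h g List.mem_cons_self
    refine ⟨cd_mul (cd_L h3) h1, (D_mul ((cd_L h3).differentiableAt (by simp))
      (h1.differentiableAt (by simp)) 1 fun a => ?_).trans (by simp [h2, D_L h3])⟩
    rw [one_smul]
    exact (lev_comm _ _).symm

theorem P_comp {us : List (F → ℂ)} {φ : E → F} (hφ : AnalyticAt ℂ φ z)
    (h : ∀ u ∈ us, ContDiffAt ℝ ∞ u (φ z)) :
    P (us.map fun u y => u (φ y)) z = pb φ z (P us (φ z)) := by
  rw [P, P, map_list_prod, List.map_map, List.map_map]
  exact congrArg _ (List.map_congr_left fun u hu => L_comp hφ (h u hu))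

theorem int_P [MeasurableSpace E] [BorelSpace E] (μ : Measure E) [μ.IsAddHaarMeasure]
    (l : Λ E →ₗ[ℂ] ℂ) (hg : ContDiff ℝ ∞ g) (hc : HasCompactSupport g)
    (h : ∀ g ∈ gs, ContDiff ℝ ∞ g) : ∫ z, l (P (g :: gs) z) ∂μ = 0 := by
  have h1 (z) := cd_P (z := z) fun g hg => (h g hg).contDiffAt
  have h2 (z) : ContDiffAt ℝ ∞ (fun y => iJ E (fderiv ℝ g y)) z :=
    (iJ E).contDiff.contDiffAt.comp z (df2 hg.contDiffAt)
  rw [← int_D μ l (u := fun y => iJ E (fderiv ℝ g y) * P gs y)
    (contDiff_iff_contDiffAt.2 fun z => (cd_mul (h2 z) (h1 z).1).of_le (by simp))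
    (((hc.fderiv ℝ).comp_left (map_zero (iJ E))).mul_right)]
  refine integral_congr_ae (.of_forall fun z => congrArg l ?_)
  rw [D_mul ((h2 z).differentiableAt (by simp)) ((h1 z).1.differentiableAt (by simp)) (-1) fun a => by
    rw [neg_one_smul]; exact eq_neg_of_add_eq_zero_left (ι_add_mul_swap _ _), (h1 z).2,
    D_iJ hg.contDiffAt, mul_zero, smul_zero, add_zero, P_cons]

end

end Vale.Agent.P269HI
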